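import Vale.Agent.P197.SymChar.Dominance

/-!
# Dominance makes Kostka numbers positive
-/

open Finset Equiv

namespace Vale.Agent.P197.SymChar

variable {n k N : ℕ}

lemma pre_eq_range (F : ℕ → ℕ) (hF : ∀ i, k ≤ i → F i = 0) (j : ℕ) :
    pre j (fun i : Fin k => (F i : ℤ)) = ((∑ i ∈ range j, F i : ℕ) : ℤ) := by
  have h : ∑ i ∈ range j, F i = ∑ i ∈ range k, if i < j then F i else 0 := by
    have h1 : (range k).filter (fun i => i < j) = range (min k j) := by ext; simp [lt_min_iff]
    rw [← sum_filter, h1]
    refine (sum_subset (range_subset_range.mpr (min_le_right k j)) fun i hi hi' => ?_).symm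
    simp only [mem_range] at hi hi'
    exact hF i (by omega)
  rw [h, pre, ← Fin.sum_univ_eq_sum_range (fun i => if i < j then F i else 0) k]
  push_cast
  rfl

/-- Kostka numbers of beta sets are nonnegative. -/
theorem kost_nonneg : ∀ (k : ℕ) {n : ℕ} (a : Fin N → ℤ) (c : Fin k → ℕ), IsBeta n a →
    ∑ i, c i = n → 0 ≤ kost N k a c := by
  classical
  intro k
  induction k with
  | zero =>
    intro n a c ha hc
    have hn : n = 0 := by simpa using hc.symm
    subst hn
    show 0 ≤ eps a 0
    rw [eps_zero ha]
    exact zero_le_one
  | succ k ih =>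
    intro n a c ha hc
    rw [kost_succ ha]
    refine sum_nonneg fun e he => ?_
    rw [mem_filter, mem_piAntidiag] at he
    obtain ⟨m, hm, hmn⟩ := he.2.isBeta ha
    refine ih _ _ hm ?_
    rw [Fin.sum_univ_castSucc] at hc
    have hsum : (∑ i, (e i : ℤ)) = c (Fin.last k) := by exact_mod_cast he.1.1
    zify at hc ⊢
    simp only [Function.comp_apply]
    omega

/-- Dominance of the content by the shape makes the Kostka number positive. -/
theorem kost_pos : ∀ (k : ℕ) {n : ℕ} (a : Fin N → ℤ) (c : Fin k → ℕ), IsBeta n a →
    ∑ i, c i = n → Antitone c →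
    (∀ j, pre j (fun i => (c i : ℤ)) ≤ pre j (fun i => a i - delta N i)) →
    0 < kost N k a c := by
  classical
  intro k
  induction k with
  | zero =>
    intro n a c ha hc _ _
    have hn : n = 0 := by simpa using hc.symm
    subst hn
    show 0 < eps a 0
    rw [eps_zero ha]
    exact zero_lt_one
  | succ k ih =>
    intro n a c ha hc hanti hdom
    set L := c (Fin.last k) with hL
    let lam : ℕ → ℕ := fun i => if h : i < N then (a ⟨i, h⟩ - delta N ⟨i, h⟩).toNat else 0
    let cc : ℕ → ℕ := fun i => if h : i < k + 1 then c ⟨i, h⟩ else 0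
    have hlam : ∀ i : Fin N, (lam i : ℤ) = a i - delta N i := fun i => by
      have := ha.delta_le' i
      simp only [lam, dif_pos i.isLt, Fin.eta]
      omega
    have hlam0 : ∀ i, N ≤ i → lam i = 0 := fun i hi => dif_neg (not_lt.mpr hi)
    have hlanti : ∀ i, lam (i + 1) ≤ lam i := by
      intro i
      rcases lt_or_ge (i + 1) N with h | h
      · have h1 := hlam ⟨i, by omega⟩
        have h2 := hlam ⟨i + 1, h⟩
        have h3 := ha.anti ⟨i, by omega⟩ ⟨i + 1, h⟩ (by simp [Fin.lt_def])
        simp only [delta] at h1 h2 h3
        push_cast at h2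
        omega
      · rw [hlam0 _ h]; exact Nat.zero_le _
    have hcc : ∀ i : Fin (k + 1), cc i = c i := fun i => dif_pos i.isLt
    have hdom' : ∀ j, ∑ i ∈ range j, cc i ≤ ∑ i ∈ range j, lam i := by
      intro j
      zify
      have h1 := pre_eq_range (k := k + 1) cc (fun i hi => dif_neg (by omega)) j
      have h2 := pre_eq_range (k := N) lam hlam0 j
      have h3 := hdom j
      simp only [hcc] at h1
      simp only [hlam] at h2
      rw [h1, h2] at h3
      exact_mod_cast h3
    have hccL : ∀ i, i < k + 1 → L ≤ cc i := fun i hi => by
      simp only [cc, dif_pos hi, hL]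
      exact hanti (Fin.le_last _)
    have hL0 : L ≤ lam 0 := by
      have h1 := hdom' 1
      simp only [sum_range_one] at h1
      exact (hccL 0 (by omega)).trans h1
    let e : ℕ → ℕ := fun i => min (lam i) L - min (lam (i + 1)) L
    have htele : ∀ j, ∑ i ∈ range j, e i + min (lam j) L = L := by
      intro j
      induction j with
      | zero => simp [min_eq_right hL0]
      | succ j ihj =>
        rw [sum_range_succ]
        have := hlanti j
        simp only [e] at ihj ⊢
        omega
    let eF : Fin N → ℕ := fun i => e i
    have hsumE : ∑ i, eF i = L := by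
      simp only [eF]
      rw [Fin.sum_univ_eq_sum_range e N]
      have := htele N
      rw [hlam0 N le_rfl] at this
      simpa using this
    have hint : Interlace a (fun i => a i - eF i) := by
      intro i
      refine ⟨?_, fun j hj => ?_⟩
      · have h1 := hlam i
        have h2 := delta_nonneg i
        simp only [eF, e]
        omega
      · have h1 := hlam i
        have h2 := hlam j
        have h3 := hlanti i
        simp only [eF, e]
        rw [hj] at h2
        simp only [delta] at h1 h2
        rw [hj] at h2
        push_cast at h2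
        omega
    have hmem : eF ∈ (piAntidiag (univ : Finset (Fin N)) (c (Fin.last k))).filter
        (fun e => Interlace a (fun i => a i - e i)) := by
      rw [mem_filter, mem_piAntidiag]
      exact ⟨⟨hsumE, fun i _ => mem_univ i⟩, hint⟩
    rw [kost_succ ha]
    refine sum_pos' (fun f hf => ?_) ⟨eF, hmem, ?_⟩
    · rw [mem_filter, mem_piAntidiag] at hf
      obtain ⟨m, hm, hmn⟩ := hf.2.isBeta ha
      refine kost_nonneg k _ _ hm ?_
      have hsum : (∑ i, (f i : ℤ)) = c (Fin.last k) := by exact_mod_cast hf.1.1
      rw [Fin.sum_univ_castSucc] at hc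
      zify at hc ⊢
      simp only [Function.comp_apply]
      omega
    · obtain ⟨m, hm, hmn⟩ := hint.isBeta ha
      have hsum : (∑ i, (eF i : ℤ)) = L := by exact_mod_cast hsumE
      have hcm : ∑ i : Fin k, (c ∘ Fin.castSucc) i = m := by
        rw [Fin.sum_univ_castSucc] at hc
        zify at hc ⊢
        simp only [Function.comp_apply]
        omega
      refine ih _ _ hm hcm (fun x y hxy => hanti (Fin.castSucc_le_castSucc_iff.mpr hxy)) ?_
      intro j
      have hmu : ∀ j, pre j (fun i : Fin N => a i - (eF i : ℤ) - delta N i) =
          ((∑ i ∈ range j, lam i : ℕ) : ℤ) - ((∑ i ∈ range j, e i : ℕ) : ℤ) := by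
        intro j
        rw [← pre_eq_range (k := N) lam hlam0 j, ← pre_eq_range (k := N) e (fun i hi => by
          simp [e, hlam0 i hi, hlam0 (i + 1) (by omega)]) j]
        simp only [pre, ← sum_sub_distrib]
        refine sum_congr rfl fun i _ => ?_
        split_ifs
        · simp only [eF, hlam]; ring
        · ring
      have hc' : pre j (fun i : Fin k => ((c ∘ Fin.castSucc) i : ℤ)) =
          ((∑ i ∈ range (min j k), cc i : ℕ) : ℤ) := by
        have h := pre_eq_range (k := k) (fun i => if i < k then cc i else 0)
          (fun i hi => if_neg (not_lt.mpr hi)) j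
        have e1 : ∑ i ∈ range j, (if i < k then cc i else 0) = ∑ i ∈ range (min j k), cc i := by
          rw [← sum_filter]
          refine sum_congr ?_ fun _ _ => rfl
          ext; simp [lt_min_iff]
        rw [e1] at h
        rw [← h]
        refine sum_congr rfl fun i _ => ?_
        split_ifs with hij
        · simp only [Function.comp_apply, i.isLt, if_true]
          exact_mod_cast (hcc i.castSucc).symm
        · rfl
      rw [hc', hmu]
      have key : ∀ j, j ≤ k → ∑ i ∈ range j, cc i + ∑ i ∈ range j, e i ≤ ∑ i ∈ range j, lam i := by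
        intro j hj
        have h1 := htele j
        have h2 := hdom' j
        have h3 := hdom' (j + 1)
        have h4 := hccL j (by omega)
        rw [sum_range_succ, sum_range_succ] at h3
        omega
      have hmono : ∑ i ∈ range (min j k), lam i + ∑ i ∈ range j, e i
          ≤ ∑ i ∈ range j, lam i + ∑ i ∈ range (min j k), e i := by
        have hs : range (min j k) ⊆ range j := range_subset_range.mpr (min_le_left j k)
        rw [← sum_sdiff hs (f := e), ← sum_sdiff hs (f := lam)]
        have : ∑ i ∈ range j \ range (min j k), e i ≤ ∑ i ∈ range j \ range (min j k), lam i :=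
          sum_le_sum fun i _ => by simp only [e]; omega
        omega
      have := key (min j k) (min_le_right j k)
      omega

/-- Shape `p` and content `q` with `q` dominated by `p`. -/
theorem kost_pos_of_dominates {p q : n.Partition} (h : Dominates p q) :
    0 < kost n n (beta p) (fun i : Fin n => row q i) := by
  refine kost_pos n _ _ (isBeta_beta p) (sum_row q)
    (fun x y hxy => row_antitone q hxy) fun j => ?_
  refine ((dominates_iff_pre.mp h) j).trans (le_of_eq (sum_congr rfl fun i _ => ?_))
  simp [beta]

end Vale.Agent.P197.SymChar
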