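import Vale.Agent.P197.SymChar.Specht

/-!
# Conjugate partitions and dominance

`conjP p` has row lengths `#{i | c < row p i}`; conjugation reverses dominance.
-/

open Finset Equiv

namespace Vale.Agent.P197.SymChar

variable {n : ℕ}

lemma row_eq_zero_of_le (p : n.Partition) {i : ℕ} (h : n ≤ i) : row p i = 0 :=
  List.getD_eq_default _ _ ((length_sort_le p).trans h)

lemma row_antitone (p : n.Partition) : Antitone (row p) := by
  refine antitone_nat_of_succ_le fun i => ?_
  rcases lt_or_ge (i + 1) n with h | h
  · have h1 := (isBeta_beta p).anti ⟨i, by omega⟩ ⟨i + 1, h⟩ (by simp [Fin.lt_def])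
    simp only [beta, delta] at h1
    push_cast at h1
    omega
  · rw [row_eq_zero_of_le p h]; exact Nat.zero_le _

lemma sum_range_row (p : n.Partition) : ∑ i ∈ range n, row p i = n := by
  rw [← Fin.sum_univ_eq_sum_range (fun i => row p i) n]; exact sum_row p

lemma row_le_size (p : n.Partition) (i : ℕ) : row p i ≤ n := by
  rcases lt_or_ge i n with h | h
  · calc row p i ≤ ∑ l ∈ range n, row p l :=
        single_le_sum (fun _ _ => Nat.zero_le _) (mem_range.mpr h)
      _ = n := sum_range_row p
  · rw [row_eq_zero_of_le p h]; exact Nat.zero_le _

/-- Dominance of partitions: every prefix sum of `p` is at least that of `q`. -/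
def Dominates (p q : n.Partition) : Prop :=
  ∀ j, ∑ i ∈ range j, row q i ≤ ∑ i ∈ range j, row p i

lemma dominates_antisymm {p q : n.Partition} (h : Dominates p q) (h' : Dominates q p) : p = q := by
  refine beta_injective (funext fun i => ?_)
  have e : ∀ j, ∑ i ∈ range j, row p i = ∑ i ∈ range j, row q i :=
    fun j => le_antisymm (h' j) (h j)
  have h1 := e ((i : ℕ) + 1)
  rw [sum_range_succ, sum_range_succ, e i] at h1
  simp only [beta]
  omega

lemma pre_row (p : n.Partition) (j : ℕ) :
    pre j (fun i : Fin n => (row p i : ℤ)) = ((∑ i ∈ range j, row p i : ℕ) : ℤ) := by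
  have h : ∑ i ∈ range j, row p i = ∑ i ∈ range n, if i < j then row p i else 0 := by
    have h1 : (range n).filter (fun i => i < j) = range (min n j) := by ext; simp [lt_min_iff]
    rw [← sum_filter, h1]
    refine (sum_subset (range_subset_range.mpr (min_le_right n j)) fun i hi hi' => ?_).symm
    simp only [mem_range] at hi hi'
    exact row_eq_zero_of_le p (by omega)
  rw [h, pre, ← Fin.sum_univ_eq_sum_range (fun i => if i < j then row p i else 0) n]
  push_cast
  rfl

/-- Prefix sums against prefix sums, in either language. -/
lemma dominates_iff_pre {p q : n.Partition} : Dominates p q ↔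
    ∀ j, pre j (fun i : Fin n => (row q i : ℤ)) ≤ pre j (fun i : Fin n => (row p i : ℤ)) := by
  simp only [Dominates, pre_row, Nat.cast_le]

/-- The number of rows longer than `c`: the length of column `c`. -/
def colLen (p : n.Partition) (c : ℕ) : ℕ := #((range n).filter fun i => c < row p i)

lemma colLen_antitone (p : n.Partition) : Antitone (colLen p) := fun a b h =>
  card_le_card fun i hi => by simp only [mem_filter] at hi ⊢; exact ⟨hi.1, by omega⟩

lemma colLen_eq_zero_of_le (p : n.Partition) {c : ℕ} (h : n ≤ c) : colLen p c = 0 := by
  rw [colLen, card_eq_zero, filter_eq_empty_iff]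
  intro i _
  have := row_le_size p i
  omega

lemma lt_colLen_iff (p : n.Partition) (i c : ℕ) : i < colLen p c ↔ c < row p i := by
  constructor
  · intro h
    by_contra hc
    have hsub : (range n).filter (fun l => c < row p l) ⊆ range i := fun l hl => by
      simp only [mem_filter, mem_range] at hl ⊢
      by_contra hli
      have := row_antitone p (not_lt.mp hli)
      omega
    have := card_le_card hsub
    rw [card_range] at this
    simp only [colLen] at h
    omega
  · intro h
    have hn : i < n := by
      by_contra hh
      rw [row_eq_zero_of_le p (not_lt.mp hh)] at h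
      omega
    have hsub : range (i + 1) ⊆ (range n).filter (fun l => c < row p l) := fun l hl => by
      simp only [mem_filter, mem_range] at hl ⊢
      have := row_antitone p (show l ≤ i by omega)
      exact ⟨by omega, by omega⟩
    have := card_le_card hsub
    rw [card_range] at this
    exact this

lemma sum_range_colLen (p : n.Partition) (j : ℕ) :
    ∑ c ∈ range j, colLen p c = ∑ i ∈ range n, min j (row p i) := by
  simp only [colLen, card_filter]
  rw [sum_comm]
  refine sum_congr rfl fun i _ => ?_
  rw [← card_filter]
  have : (range j).filter (fun c => c < row p i) = range (min j (row p i)) := by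
    ext; simp [lt_min_iff]
  rw [this, card_range]

/-- The conjugate partition. -/
def conjP (p : n.Partition) : n.Partition :=
  Nat.Partition.ofSums n ((Multiset.range n).map (colLen p)) (by
    show ∑ c ∈ range n, colLen p c = n
    rw [sum_range_colLen]
    conv_rhs => rw [← sum_range_row p]
    exact sum_congr rfl fun i _ => min_eq_right (row_le_size p i))

theorem row_conjP (p : n.Partition) (c : ℕ) : row (conjP p) c = colLen p c := by
  set l := ((List.range n).map (colLen p)).filter (fun a => decide (a ≠ 0)) with hl
  have hpair : ((List.range n).map (colLen p)).Pairwise (· ≥ ·) :=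
    List.pairwise_map.mpr (List.pairwise_lt_range.imp fun h => colLen_antitone p h.le)
  have hsort : (conjP p).parts.sort (· ≥ ·) = l := by
    refine List.Perm.eq_of_pairwise (le := (· ≥ ·)) (fun a b _ _ h h' => le_antisymm h' h)
      (Multiset.pairwise_sort _ _) (hpair.filter _) (Multiset.coe_eq_coe.mp ?_)
    rw [Multiset.sort_eq]
    rfl
  set k := colLen p c with hk
  set z := #((range n).filter fun i => 0 < colLen p i) with hz
  have htake : l = ((List.range z).map (colLen p)) := by
    refine List.Perm.eq_of_pairwise (le := (· ≥ ·)) (fun a b _ _ h h' => le_antisymm h' h)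
      (hpair.filter _) (List.pairwise_map.mpr
        (List.pairwise_lt_range.imp fun h => colLen_antitone p h.le)) (Multiset.coe_eq_coe.mp ?_)
    have hset : (range n).filter (fun i => 0 < colLen p i) = range z := by
      refine eq_of_subset_of_card_le (fun i hi => ?_) (by rw [card_range])
      rw [mem_range]
      simp only [mem_filter, mem_range] at hi
      have hsub : range (i + 1) ⊆ (range n).filter (fun i => 0 < colLen p i) := fun l hl => by
        simp only [mem_filter, mem_range] at hl ⊢
        have := colLen_antitone p (show l ≤ i by omega)
        exact ⟨by omega, by omega⟩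
      have := card_le_card hsub
      rw [card_range] at this
      omega
    have := congrArg (fun s => Multiset.map (colLen p) s.val) hset
    simp only [filter_val, range_val, Multiset.map_coe, Multiset.range] at this
    rw [← this, hl, ← Multiset.filter_coe, ← Multiset.map_coe, Multiset.filter_map]
    congr 1
    refine Multiset.filter_congr fun x _ => ?_
    simp [Nat.pos_iff_ne_zero]
  rw [row, hsort, htake]
  rcases lt_or_ge c z with h | h
  · rw [List.getD_eq_getElem _ _ (by simpa using h)]
    simp [hk]
  · rw [List.getD_eq_default _ _ (by simpa using h)]
    by_contra hne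
    have hsub : range (c + 1) ⊆ (range n).filter (fun i => 0 < colLen p i) := fun l hl => by
      simp only [mem_filter, mem_range] at hl ⊢
      have h1 := colLen_antitone p (show l ≤ c by omega)
      have h2 : colLen p l ≠ 0 := by omega
      exact ⟨by by_contra hh; exact h2 (colLen_eq_zero_of_le p (not_lt.mp hh)), by omega⟩
    have := card_le_card hsub
    rw [card_range] at this
    omega

theorem conjP_conjP (p : n.Partition) : conjP (conjP p) = p := by
  refine beta_injective (funext fun i => ?_)
  have h : ∀ c, c < row (conjP (conjP p)) i ↔ c < row p i := fun c => by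
    rw [row_conjP, lt_colLen_iff, row_conjP, lt_colLen_iff]
  have : row (conjP (conjP p)) i = row p i := by
    refine le_antisymm ?_ ?_ <;> by_contra hh
    · exact lt_irrefl _ ((h _).mp (not_le.mp hh))
    · exact lt_irrefl _ ((h _).mpr (not_le.mp hh))
  simp only [beta, this]

lemma sum_range_row_conjP (p : n.Partition) (j : ℕ) :
    ∑ c ∈ range j, row (conjP p) c = ∑ i ∈ range n, min j (row p i) := by
  simp only [row_conjP]; exact sum_range_colLen p j

/-- A more dominant partition has fewer boxes in the first `j` columns. -/
lemma sum_min_le_of_dominates {p q : n.Partition} (h : Dominates p q) (j : ℕ) :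
    ∑ i ∈ range n, min j (row p i) ≤ ∑ i ∈ range n, min j (row q i) := by
  set k := colLen q j
  have hk : k ≤ n := (card_le_card (filter_subset _ _)).trans_eq (card_range n)
  have e1 : ∑ i ∈ range n, min j (row q i) + ∑ i ∈ range k, row q i = n + j * k := by
    have h1 : ∀ i ∈ range n, min j (row q i) + (if i < k then row q i else 0)
        = row q i + if i < k then j else 0 := by
      intro i _
      by_cases hi : i < k
      · rw [if_pos hi, if_pos hi]
        have := (lt_colLen_iff q i j).mp hi
        omega
      · rw [if_neg hi, if_neg hi]
        have : ¬ j < row q i := fun hh => hi ((lt_colLen_iff q i j).mpr hh)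
        omega
    have h2 := sum_congr rfl h1
    have hfil : (range n).filter (fun i => i < k) = range k := by ext; simp; omega
    rw [sum_add_distrib, sum_add_distrib, ← sum_filter, ← sum_filter, hfil, sum_range_row,
      sum_const, card_range, smul_eq_mul, mul_comm k j] at h2
    exact h2
  have e2 : ∑ i ∈ range n, min j (row p i) + ∑ i ∈ range k, row p i ≤ n + j * k := by
    have h1 : ∀ i ∈ range n, min j (row p i) + (if i < k then row p i else 0)
        ≤ row p i + if i < k then j else 0 := fun i _ => by split_ifs <;> omega
    have h2 := sum_le_sum h1
    have hfil : (range n).filter (fun i => i < k) = range k := by ext; simp; omega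
    rw [sum_add_distrib, sum_add_distrib, ← sum_filter, ← sum_filter, hfil, sum_range_row,
      sum_const, card_range, smul_eq_mul, mul_comm k j] at h2
    exact h2
  have := h k
  omega

/-- Conjugation reverses dominance. -/
theorem dominates_conjP {p q : n.Partition} (h : Dominates p q) :
    Dominates (conjP q) (conjP p) := fun j => by
  rw [sum_range_row_conjP, sum_range_row_conjP]; exact sum_min_le_of_dominates h j

/-- A staircase is its own conjugate. -/
theorem conjP_staircase {m : ℕ} {r : n.Partition} (hr : ∀ i, row r i = m - i) : conjP r = r := by
  refine beta_injective (funext fun i => ?_)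
  have h : ∀ l, l < row (conjP r) i ↔ l < row r i := fun l => by
    rw [row_conjP, lt_colLen_iff, hr, hr]; omega
  have : row (conjP r) i = row r i := by
    refine le_antisymm ?_ ?_ <;> by_contra hh
    · exact lt_irrefl _ ((h _).mp (not_le.mp hh))
    · exact lt_irrefl _ ((h _).mpr (not_le.mp hh))
  simp only [beta, this]

end Vale.Agent.P197.SymChar
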