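import Vale.Agent.P197.SymChar.Orthogonal

/-!
# The Frobenius characters are exactly the irreducible characters
-/

open Finset Equiv Representation

namespace Vale.Agent.P197.SymChar

/-! ## General finite groups -/

section General

variable {G : Type} [Group G] [Fintype G]

/-- The functions on `G` that are characters of irreducible complex representations. -/
def IrrSet (G : Type) [Group G] : Set (G → ℂ) :=
  {χ | ∃ (d : ℕ) (ρ : Representation ℂ G (Fin d → ℂ)), ρ.IsIrreducible ∧ ρ.character = χ}

/-- Transport a representation along a linear equivalence. -/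
def transport {V W : Type} [AddCommGroup V] [Module ℂ V] [AddCommGroup W] [Module ℂ W]
    (e : V ≃ₗ[ℂ] W) (ρ : Representation ℂ G V) : Representation ℂ G W where
  toFun g := e.conj (ρ g)
  map_one' := by ext x; simp [LinearEquiv.conj_apply]
  map_mul' g h := by ext x; simp [LinearEquiv.conj_apply]

lemma transport_irreducible {V W : Type} [AddCommGroup V] [Module ℂ V] [AddCommGroup W]
    [Module ℂ W] (e : V ≃ₗ[ℂ] W) (ρ : Representation ℂ G V) [h : ρ.IsIrreducible] :
    (transport e ρ).IsIrreducible := by
  let f : Subrepresentation (transport e ρ) ≃o Subrepresentation ρ :=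
    { toFun := fun U => ⟨U.toSubmodule.comap e.toLinearMap, fun g v hv => by
        have := U.apply_mem_toSubmodule g hv
        simpa [transport, LinearEquiv.conj_apply] using this⟩
      invFun := fun U => ⟨U.toSubmodule.comap e.symm.toLinearMap, fun g v hv => by
        have := U.apply_mem_toSubmodule g hv
        simpa [transport, LinearEquiv.conj_apply] using this⟩
      left_inv := fun U => Subrepresentation.toSubmodule_injective (by ext; simp)
      right_inv := fun U => Subrepresentation.toSubmodule_injective (by ext; simp)
      map_rel_iff' := fun {U U'} => by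
        constructor
        · intro hle x hx
          have := hle (show e.symm x ∈ U.toSubmodule.comap e.toLinearMap by simp; exact hx)
          change e (e.symm x) ∈ U'.toSubmodule at this
          rwa [e.apply_symm_apply] at this
        · intro hle x hx
          exact hle hx }
  exact (OrderIso.isSimpleOrder_iff f).mpr h

lemma character_mem_irrSet {V : Type} [AddCommGroup V] [Module ℂ V] [FiniteDimensional ℂ V]
    (ρ : Representation ℂ G V) [ρ.IsIrreducible] : ρ.character ∈ IrrSet G := by
  let e := (Module.finBasis ℂ V).equivFun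
  refine ⟨_, transport e ρ, transport_irreducible e ρ, ?_⟩
  funext g
  exact LinearMap.trace_conj' _ e

lemma character_mem_span : ∀ (m : ℕ) {V : Type} [AddCommGroup V] [Module ℂ V]
    [FiniteDimensional ℂ V] (ρ : Representation ℂ G V), Module.finrank ℂ V = m →
    ρ.character ∈ Submodule.span ℤ (IrrSet G) := by
  intro m
  induction m using Nat.strong_induction_on with
  | _ m ih =>
    intro V _ _ _ ρ hm
    rcases subsingleton_or_nontrivial V with hV | hV
    · have : ρ.character = 0 := by
        funext g
        simp [Representation.character, Subsingleton.elim (ρ g) 0]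
      rw [this]; exact zero_mem _
    by_cases hirr : ρ.IsIrreducible
    · exact Submodule.subset_span (character_mem_irrSet ρ)
    have : Nontrivial (Subrepresentation ρ) := by
      refine ⟨⊥, ⊤, fun h => ?_⟩
      obtain ⟨x, hx⟩ := exists_ne (0 : V)
      have hxm : x ∈ (⊥ : Subrepresentation ρ).toSubmodule := by
        rw [h]; exact Submodule.mem_top
      exact hx ((Submodule.mem_bot ℂ).mp hxm)
    obtain ⟨U, hU⟩ : ∃ U : Subrepresentation ρ, U ≠ ⊥ ∧ U ≠ ⊤ := by
      by_contra hc
      push Not at hc
      exact hirr { eq_bot_or_eq_top := fun U => or_iff_not_imp_left.mpr (hc U) }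
    let ι := Subrepresentation.subrepresentationSubmoduleOrderIso (ρ := ρ)
    have : NeZero (Nat.card G : ℂ) := ⟨by simp [Nat.card_eq_fintype_card]⟩
    have : ComplementedLattice (Subrepresentation ρ) :=
      ι.complementedLattice_iff.mpr inferInstance
    obtain ⟨U', hUU'⟩ := exists_isCompl U
    have hsub : IsCompl U.toSubmodule U'.toSubmodule := by
      refine IsCompl.of_eq ?_ ?_
      · exact congrArg Subrepresentation.toSubmodule hUU'.inf_eq_bot
      · exact congrArg Subrepresentation.toSubmodule hUU'.sup_eq_top
    let e := Submodule.prodEquivOfIsCompl _ _ hsub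
    have hchar : ρ.character = U.toRepresentation.character + U'.toRepresentation.character := by
      funext g
      have hconj : ρ g = e.conj ((U.toRepresentation g).prodMap (U'.toRepresentation g)) := by
        refine LinearMap.ext fun x => ?_
        obtain ⟨p, rfl⟩ := e.surjective x
        simp [e, LinearEquiv.conj_apply, Subrepresentation.toRepresentation]
      simp [Representation.character, hconj, LinearMap.trace_conj', LinearMap.trace_prodMap']
    have hrank : Module.finrank ℂ U.toSubmodule + Module.finrank ℂ U'.toSubmodule = m := by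
      rw [← hm, ← e.finrank_eq, Module.finrank_prod]
    have hpos : ∀ W : Subrepresentation ρ, W ≠ ⊥ → 0 < Module.finrank ℂ W.toSubmodule := by
      intro W hW
      rw [Module.finrank_pos_iff, Submodule.nontrivial_iff_ne_bot]
      exact fun h => hW (Subrepresentation.toSubmodule_injective h)
    have h2 : 0 < Module.finrank ℂ U'.toSubmodule := hpos U' fun h => hU.2 (by
      have := hUU'.sup_eq_top; simpa [h] using this)
    have h1 := hpos U hU.1
    rw [hchar]
    exact add_mem (ih _ (by omega) U.toRepresentation rfl) (ih _ (by omega) U'.toRepresentation rfl)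

lemma irr_inner {χ ψ : G → ℂ} [DecidableEq (G → ℂ)] (hχ : χ ∈ IrrSet G) (hψ : ψ ∈ IrrSet G) :
    ∑ g, χ g * ψ g⁻¹ = if χ = ψ then (Fintype.card G : ℂ) else 0 := by
  classical
  obtain ⟨d, ρ, hρ, rfl⟩ := hχ
  obtain ⟨d', σ, hσ, rfl⟩ := hψ
  have hne : (Nat.card G : ℂ) ≠ 0 := by simp [Nat.card_eq_fintype_card]
  have : Invertible (Nat.card G : ℂ) := invertibleOfNonzero hne
  have h := char_orthonormal ρ σ
  have h2 := congrArg ((Nat.card G : ℂ) * ·) h
  simp only [← mul_assoc, mul_inv_cancel₀ hne, one_mul] at h2
  rw [h2]
  split_ifs with hiso heq heq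
  · simp [Nat.card_eq_fintype_card]
  · obtain ⟨φ⟩ := hiso
    exact absurd (char_iso φ).symm heq
  · exfalso
    obtain ⟨φ⟩ : Nonempty (Representation.Equiv ρ ρ) := ⟨Representation.Equiv.refl ρ⟩
    have h3 := char_orthonormal ρ ρ
    rw [if_pos ⟨φ⟩] at h3
    rw [if_neg hiso] at h
    rw [← heq] at h
    rw [h3] at h
    simp at h
  · simp

/-- A virtual character of norm one with positive degree is an irreducible character. -/
theorem mem_irrSet_of_norm_one {χ : G → ℂ} (hχ : χ ∈ Submodule.span ℤ (IrrSet G))
    (hnorm : ∑ g, χ g * χ g⁻¹ = Fintype.card G) {d : ℕ} (hdeg : χ 1 = d) : χ ∈ IrrSet G := by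
  classical
  obtain ⟨c, rfl⟩ := (Finsupp.mem_span_iff_linearCombination ℤ _ _).mp hχ
  have hexp : ∀ g, (Finsupp.linearCombination ℤ Subtype.val c : G → ℂ) g =
      ∑ s ∈ c.support, (c s : ℂ) * (s : G → ℂ) g := by
    intro g
    simp [Finsupp.linearCombination_apply, Finsupp.sum, Finset.sum_apply]
  simp only [hexp, sum_mul_sum] at hnorm
  rw [sum_comm] at hnorm
  have hrw : ∀ s ∈ c.support, ∑ g : G, ∑ t ∈ c.support,
      (c s : ℂ) * (s : G → ℂ) g * ((c t : ℂ) * (t : G → ℂ) g⁻¹) =
      (c s : ℂ) * c s * Fintype.card G := by
    intro s hs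
    rw [sum_comm, sum_eq_single s]
    · rw [← sum_congr rfl fun g _ => (mul_mul_mul_comm _ _ _ _).symm, ← mul_sum,
        irr_inner s.2 s.2, if_pos rfl]
    · intro t _ hts
      rw [← sum_congr rfl fun g _ => (mul_mul_mul_comm _ _ _ _).symm, ← mul_sum,
        irr_inner s.2 t.2, if_neg (fun h => hts (Subtype.ext h.symm)), mul_zero]
    · exact fun h => absurd hs h
  rw [sum_congr rfl hrw, ← sum_mul] at hnorm
  have hone : ∑ s ∈ c.support, c s * c s = 1 := by
    have h1 : (∑ s ∈ c.support, (c s : ℂ) * c s) = 1 :=
      mul_right_cancel₀ (b := (Fintype.card G : ℂ)) (by simp) (by rw [hnorm, one_mul])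
    exact_mod_cast h1
  have hsq : ∀ s ∈ c.support, 1 ≤ c s * c s := fun s hs => by
    have := Finsupp.mem_support_iff.mp hs
    rcases lt_or_gt_of_ne this with h | h <;> nlinarith
  have hcard : (c.support.card : ℤ) ≤ 1 := by
    rw [← hone]
    simpa using card_nsmul_le_sum _ _ _ hsq
  obtain ⟨s, hs⟩ : ∃ s, c.support = {s} := by
    rcases Nat.eq_zero_or_pos c.support.card with h | h
    · rw [card_eq_zero] at h; simp [h] at hone
    · exact card_eq_one.mp (by omega)
  rw [hs, sum_singleton] at hone
  obtain ⟨e, ρ, hρ, hse⟩ := id s.2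
  have hd := hexp 1
  rw [hdeg, hs, sum_singleton, ← hse, char_one] at hd
  have hd' : (d : ℤ) = c s * (Module.finrank ℂ (Fin e → ℂ) : ℤ) := by exact_mod_cast hd
  have hepos : 0 < Module.finrank ℂ (Fin e → ℂ) := by
    rcases Nat.eq_zero_or_pos e with rfl | he
    · exfalso
      have := IsSimpleOrder.toNontrivial (α := Subrepresentation ρ)
      obtain ⟨U, U', hne⟩ := exists_pair_ne (Subrepresentation ρ)
      exact hne (Subrepresentation.toSubmodule_injective (Subsingleton.elim _ _))
    · simpa using he
  have hcs : c s = 1 := by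
    rcases Int.eq_one_or_neg_one_of_mul_eq_one hone with h | h
    · exact h
    · rw [h] at hd'; omega
  have : (Finsupp.linearCombination ℤ Subtype.val c : G → ℂ) = s := by
    funext g; rw [hexp, hs, sum_singleton, hcs]; simp
  rw [this]
  exact s.2

end General

/-! ## Symmetric groups -/

variable {α : Type} [Fintype α] [DecidableEq α] {N n : ℕ}

lemma chi_inv (a : Fin N → ℤ) (π : Perm α) : chi a π⁻¹ = chi a π := by
  refine sum_congr ?_ fun _ _ => rfl
  ext f
  simp only [mem_fixedCol]
  constructor <;> intro h <;> funext x
  · have := congrFun h (π x); simpa using this.symm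
  · have := congrFun h (π⁻¹ x); simpa using this.symm

/-- The permutation representation on colourings with prescribed fibre sizes. -/
def colouringRep (c : Fin N → ℕ) :
    Representation ℂ (Perm α) ({g : α → Fin N // cnt g = c} → ℂ) where
  toFun π :=
    { toFun := fun F g => F ⟨g.1 ∘ π, (cnt_comp_equiv g.1 π).trans g.2⟩
      map_add' := fun _ _ => rfl
      map_smul' := fun _ _ => rfl }
  map_one' := rfl
  map_mul' _ _ := rfl

lemma colouringRep_character (c : Fin N → ℕ) (π : Perm α) :
    (colouringRep c).character π = #{g : α → Fin N | cnt g = c ∧ g ∘ π = g} := by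
  classical
  rw [Representation.character,
    LinearMap.trace_eq_matrix_trace ℂ (Pi.basisFun ℂ {g : α → Fin N // cnt g = c}), Matrix.trace]
  have h : ∀ g : {g : α → Fin N // cnt g = c},
      Matrix.diag (LinearMap.toMatrix (Pi.basisFun ℂ _) (Pi.basisFun ℂ _) (colouringRep c π)) g =
        if g.1 ∘ π = g.1 then 1 else 0 := by
    intro g
    rw [Matrix.diag_apply, LinearMap.toMatrix_apply, Pi.basisFun_repr, Pi.basisFun_apply]
    change (Pi.single g (1 : ℂ) : {g : α → Fin N // cnt g = c} → ℂ)
      ⟨g.1 ∘ π, (cnt_comp_equiv g.1 π).trans g.2⟩ = _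
    simp [Pi.single_apply, Subtype.ext_iff]
  rw [sum_congr rfl fun g _ => h g, sum_boole]
  congr 1
  refine card_bij (fun g _ => g.1) (fun g hg => ?_) (fun g _ g' _ h => Subtype.ext h)
    (fun g hg => ?_)
  · simp at hg; simp [g.2, hg]
  · simp at hg; exact ⟨⟨g, hg.1⟩, by simp [hg.2], rfl⟩

/-- `chi`, with complex values. -/
def chiC (a : Fin N → ℤ) : Perm α → ℂ := fun π => (chi a π : ℂ)

lemma chiC_mem_span (a : Fin N → ℤ) :
    chiC (α := α) a ∈ Submodule.span ℤ (IrrSet (Perm α)) := by
  have h : chiC (α := α) a = ∑ c ∈ piAntidiag (univ : Finset (Fin N)) (Fintype.card α),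
      eps a c • (colouringRep (α := α) c).character := by
    funext π
    simp only [chiC, chi, fixedCol, Finset.sum_apply, Pi.smul_apply, colouringRep_character]
    rw [← sum_fiberwise_of_maps_to (g := fun g : α → Fin N => cnt g)
      (t := piAntidiag (univ : Finset (Fin N)) (Fintype.card α)) (fun g _ => by simp [sum_cnt])]
    push_cast
    refine sum_congr rfl fun c _ => ?_
    rw [filter_filter, sum_congr rfl fun g hg => by rw [(mem_filter.mp hg).2.2], sum_const]
    simp [and_comm, mul_comm]
  rw [h]
  exact Submodule.sum_mem _ fun c _ =>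
    Submodule.smul_mem _ _ (character_mem_span _ _ rfl)

lemma isBeta_sub_single {a : Fin N → ℤ} (ha : IsBeta (n + 1) a) (i : Fin N) :
    IsBeta n (fun l => a l - if l = i then 1 else 0) ∨
      ∀ π : Perm α, chi (fun l => a l - if l = i then 1 else 0) π = 0 := by
  by_cases hneg : a i - 1 < 0
  · exact Or.inr fun π => chi_eq_zero_of_neg _ (i := i) (by simpa using hneg) π
  by_cases hinj : Function.Injective fun l => a l - if l = i then (1 : ℤ) else 0
  · refine Or.inl ⟨fun x y hxy => ?_, fun x => ?_, ?_⟩
    · have h1 := ha.anti x y hxy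
      have h2 : (a x - if x = i then (1 : ℤ) else 0) ≠ a y - if y = i then (1 : ℤ) else 0 :=
        fun h => (ne_of_lt hxy) (hinj h)
      split_ifs at h2 ⊢ <;> omega
    · have := ha.nonneg x
      split_ifs with h <;> [subst h; skip] <;> omega
    · rw [sum_sub_distrib, ha.total]; simp; ring
  · exact Or.inr fun π => chi_eq_zero_of_not_injective _ hinj π

theorem chi_one_pos : ∀ (n : ℕ) {α : Type} [Fintype α] [DecidableEq α] (a : Fin N → ℤ),
    IsBeta n a → Fintype.card α = n → 0 < chi a (1 : Perm α) := by
  intro n
  induction n with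
  | zero =>
    intro α _ _ a ha hc
    have : IsEmpty α := Fintype.card_eq_zero_iff.mp hc
    have h2 : fixedCol N (1 : Perm α) = {isEmptyElim} := by
      ext f; simp [Subsingleton.elim f isEmptyElim]
    have h3 : cnt (isEmptyElim : α → Fin N) = 0 := by funext j; simp [cnt]
    simp [chi, h2, h3, eps_zero ha]
  | succ n ih =>
    intro α _ _ a ha hc
    let e : Fin n ⊕ Unit ≃ α := Fintype.equivOfCardEq (by simp [hc])
    have h1 : chi a (1 : Perm α) = chi a (Perm.sumCongr (1 : Perm (Fin n)) (1 : Perm Unit)) := by
      rw [← chi_permCongr a e]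
      congr 1
      ext x; simp [Equiv.permCongr_apply]
    rw [h1, chi_cycle _ _ _ (fun x y => by simp [Perm.SameCycle.refl, Subsingleton.elim x y])]
    simp only [Fintype.card_unit, Nat.cast_one]
    have hnn : ∀ i : Fin N, 0 ≤ chi (fun l => a l - if l = i then 1 else 0) (1 : Perm (Fin n)) := by
      intro i
      rcases isBeta_sub_single (α := Fin n) ha i with h | h
      · exact (ih (α := Fin n) _ h (by simp)).le
      · rw [h]
    have hex : ((univ : Finset (Fin N)).filter fun i => a i ≠ delta N i).Nonempty := by
      rw [filter_nonempty_iff]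
      by_contra hno
      push Not at hno
      have := ha.total
      have hh : ∑ i, a i = ∑ i, delta N i := sum_congr rfl hno
      omega
    obtain ⟨i, hi, himax⟩ := exists_max_image _ id hex
    have hb : IsBeta n (fun l => a l - if l = i then 1 else 0) := by
      rw [mem_filter] at hi
      have hge := ha.delta_le' i
      refine ⟨fun x y hxy => ?_, fun x => ?_, ?_⟩
      · have h1 := ha.anti x y hxy
        rcases eq_or_ne x i with rfl | hx
        · have hy : a y = delta N y := by
            by_contra hy
            exact absurd (himax y (mem_filter.mpr ⟨mem_univ _, hy⟩)) (not_le.mpr hxy)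
          have := delta_strictAnti hxy
          rw [if_pos rfl, if_neg (ne_of_gt hxy)]
          omega
        · rw [if_neg hx]; split_ifs <;> omega
      · have := ha.nonneg x
        have := delta_nonneg i
        split_ifs with h <;> [subst h; skip] <;> omega
      · rw [sum_sub_distrib, ha.total]; simp; ring
    exact lt_of_lt_of_le (ih (α := Fin n) _ hb (by simp))
      (single_le_sum (fun j _ => hnn j) (mem_univ i))

/-- Each Frobenius character is the character of an irreducible representation. -/
theorem chiC_mem_irrSet {a : Fin N → ℤ} (ha : IsBeta (Fintype.card α) a) :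
    chiC (α := α) a ∈ IrrSet (Perm α) := by
  have hpos := chi_one_pos _ a ha rfl (α := α)
  refine mem_irrSet_of_norm_one (chiC_mem_span a) ?_ (d := (chi a (1 : Perm α)).toNat) ?_
  · have h := sum_chi_mul_chi (α := α) ha ha
    rw [if_pos rfl] at h
    simp only [chiC, chi_inv, Fintype.card_perm]
    exact_mod_cast h
  · simp only [chiC]
    exact_mod_cast (Int.toNat_of_nonneg hpos.le).symm

/-- The row lengths of a partition in weakly decreasing order, padded by zeros. -/
def row (p : n.Partition) (i : ℕ) : ℕ := (p.parts.sort (· ≥ ·)).getD i 0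

/-- The exponent vector `λ_i + n - 1 - i` of a partition. -/
def beta (p : n.Partition) : Fin n → ℤ := fun i => row p i + delta n i

lemma length_sort_le (p : n.Partition) : (p.parts.sort (· ≥ ·)).length ≤ n := by
  rw [Multiset.length_sort]
  calc Multiset.card p.parts = (p.parts.map fun _ => 1).sum := by simp
    _ ≤ (p.parts.map id).sum := Multiset.sum_map_le_sum_map _ _ fun x hx => p.parts_pos hx
    _ = n := by simp [p.parts_sum]

lemma isBeta_beta (p : n.Partition) : IsBeta n (beta p) := by
  set l := p.parts.sort (· ≥ ·) with hl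
  have hlen : l.length ≤ n := length_sort_le p
  have hsort : l.Pairwise (· ≥ ·) := Multiset.pairwise_sort _ _
  refine ⟨fun i j hij => ?_, fun i => ?_, ?_⟩
  · have h1 := delta_strictAnti hij
    suffices row p j ≤ row p i by simp only [beta]; omega
    simp only [row, ← hl]
    rcases lt_or_ge (j : ℕ) l.length with hj | hj
    · have hi : (i : ℕ) < l.length := lt_trans hij hj
      rw [List.getD_eq_getElem _ _ hi, List.getD_eq_getElem _ _ hj]
      exact List.pairwise_iff_getElem.mp hsort _ _ hi hj hij
    · rw [List.getD_eq_default _ _ hj]; exact Nat.zero_le _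
  · have := delta_nonneg i
    simp only [beta]; omega
  · simp only [beta, sum_add_distrib]
    congr 1
    have h1 : ∑ i : Fin n, row p i = n := by
      rw [Fin.sum_univ_eq_sum_range (fun i => row p i) n,
        ← sum_subset (range_subset_range.mpr hlen) (fun i _ hi => by
          simp only [row, ← hl]; exact List.getD_eq_default _ _ (by simpa using hi)),
        ← Fin.sum_univ_eq_sum_range]
      simp only [row, ← hl]
      conv_rhs => rw [← p.parts_sum, ← Multiset.sort_eq p.parts (· ≥ ·), Multiset.sum_coe, ← hl,
        ← List.ofFn_getElem (xs := l), List.sum_ofFn]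
      exact sum_congr rfl fun i _ => List.getD_eq_getElem _ _ i.isLt
    exact_mod_cast h1

lemma beta_injective : Function.Injective (beta (n := n)) := by
  intro p q h
  have hrow : ∀ i, row p i = row q i := by
    intro i
    rcases lt_or_ge i n with hi | hi
    · have := congrFun h ⟨i, hi⟩
      simp only [beta] at this
      omega
    · simp only [row]
      rw [List.getD_eq_default _ _ ((length_sort_le p).trans hi),
        List.getD_eq_default _ _ ((length_sort_le q).trans hi)]
  have hpos : ∀ (r : n.Partition) (i : ℕ), i < (r.parts.sort (· ≥ ·)).length ↔ 0 < row r i := by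
    intro r i
    constructor
    · intro hi
      rw [row, List.getD_eq_getElem _ _ hi]
      exact r.parts_pos (by rw [← Multiset.mem_sort (r := (· ≥ ·))]; exact List.getElem_mem hi)
    · intro h
      by_contra hc
      rw [row, List.getD_eq_default _ _ (not_lt.mp hc)] at h
      exact lt_irrefl 0 h
  have hlen : (p.parts.sort (· ≥ ·)).length = (q.parts.sort (· ≥ ·)).length := by
    have h1 := hpos p
    have h2 := hpos q
    simp only [hrow] at h1
    by_contra hne
    rcases lt_or_gt_of_ne hne with h | h
    · exact absurd ((h1 _).mpr ((h2 _).mp h)) (lt_irrefl _)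
    · exact absurd ((h2 _).mpr ((h1 _).mp h)) (lt_irrefl _)
  have hlist : p.parts.sort (· ≥ ·) = q.parts.sort (· ≥ ·) := by
    refine List.ext_getElem hlen fun i h1 h2 => ?_
    have := hrow i
    rwa [row, row, List.getD_eq_getElem _ _ h1, List.getD_eq_getElem _ _ h2] at this
  exact Nat.Partition.ext (by
    rw [← Multiset.sort_eq p.parts (· ≥ ·), hlist, Multiset.sort_eq])

/-- The character `χ^λ` of `S_n`. -/
def chiP (p : n.Partition) : Perm (Fin n) → ℂ := chiC (beta p)

theorem chiP_mem_irrSet (p : n.Partition) : chiP p ∈ IrrSet (Perm (Fin n)) :=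
  chiC_mem_irrSet (by simpa using isBeta_beta p)

theorem chiP_injective : Function.Injective (chiP (n := n)) := by
  intro p q h
  by_contra hne
  have h1 := sum_chi_mul_chi (α := Fin n) (a := beta p) (b := beta q) (by simpa using isBeta_beta p)
    (by simpa using isBeta_beta q)
  have h2 := sum_chi_mul_chi (α := Fin n) (a := beta q) (b := beta q) (by simpa using isBeta_beta q)
    (by simpa using isBeta_beta q)
  have heq : ∀ π, chi (beta p) π = chi (beta q) π := fun π => by
    have := congrFun h π; simpa [chiP, chiC] using this
  simp only [heq] at h1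
  rw [if_neg (fun hb => hne (beta_injective hb)), h2, if_pos rfl] at h1
  exact absurd h1 (by simpa using Nat.factorial_ne_zero n)

/-- Every irreducible character of `S_n` is some `χ^λ`. -/
theorem exists_chiP_eq {χ : Perm (Fin n) → ℂ} (hχ : χ ∈ IrrSet (Perm (Fin n))) :
    ∃ p, chiP p = χ := by
  classical
  by_contra hno
  push Not at hno
  let f : Option n.Partition → Perm (Fin n) → ℂ := fun o => o.elim χ chiP
  have hf : ∀ o, f o ∈ IrrSet (Perm (Fin n)) := by
    rintro (_ | p)
    exacts [hχ, chiP_mem_irrSet p]
  have hinj : Function.Injective f := by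
    rintro (_ | p) (_ | q) h
    · rfl
    · exact absurd h.symm (hno q)
    · exact absurd h (hno p)
    · exact congrArg some (chiP_injective h)
  have hclass : ∀ o, ∀ π σ : Perm (Fin n), π.partition = σ.partition → f o π = f o σ := by
    intro o π σ h
    obtain ⟨d, ρ, -, hρe⟩ := hf o
    obtain ⟨τ, hτ⟩ := isConj_iff.mp (Perm.partition_eq_of_isConj.mpr h)
    rw [← hρe, ← hτ, char_conj]
  let P : Perm (Fin n) → (Fintype.card (Fin n)).Partition := Perm.partition
  let F : Option n.Partition → (Fintype.card (Fin n)).Partition → ℂ :=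
    fun o t => if h : ∃ π, P π = t then f o h.choose else 0
  have hF : ∀ o π, F o (P π) = f o π := by
    intro o π
    have h : ∃ π', P π' = P π := ⟨π, rfl⟩
    simp only [F, dif_pos h]
    exact hclass o _ _ h.choose_spec
  have hli : LinearIndependent ℂ F := by
    rw [Fintype.linearIndependent_iff]
    intro c hc o
    have h0 : ∀ π, ∑ o', c o' * f o' π = 0 := by
      intro π
      have := congrFun hc (P π)
      simpa [Finset.sum_apply, hF] using this
    have hsum : ∑ π, (∑ o', c o' * f o' π) * f o π⁻¹ = 0 := by simp [h0]
    simp only [sum_mul] at hsum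
    rw [sum_comm, sum_eq_single o] at hsum
    · simp only [mul_assoc, ← mul_sum] at hsum
      rw [irr_inner (hf o) (hf o), if_pos rfl] at hsum
      simpa using hsum
    · intro o' _ ho'
      simp only [mul_assoc, ← mul_sum]
      rw [irr_inner (hf o') (hf o), if_neg (fun h => ho' (hinj h)), mul_zero]
    · simp
  have := hli.fintype_card_le_finrank
  simp at this

end Vale.Agent.P197.SymChar
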