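import Vale.Agent.P197.SymChar.Frobenius

/-!
# Orthogonality of the Frobenius characters

Kostka numbers are triangular for dominance, hence `chi a` are orthonormal.
-/

open Finset Equiv

namespace Vale.Agent.P197.SymChar

variable {N k n : ℕ}

lemma delta_strictAnti {i j : Fin N} (h : i < j) : delta N j < delta N i := by
  have : (i : ℕ) < (j : ℕ) := h
  unfold delta; omega

lemma delta_nonneg (i : Fin N) : 0 ≤ delta N i := by
  have := i.isLt
  unfold delta; omega

lemma IsBeta.delta_le {a : Fin N → ℤ} (ha : IsBeta n a) :
    ∀ (d : ℕ) (i : Fin N), (i : ℕ) + d + 1 = N → delta N i ≤ a i := by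
  intro d
  induction d with
  | zero => intro i hi; have := ha.nonneg i; unfold delta; omega
  | succ d ih =>
    intro i hi
    let j : Fin N := ⟨(i : ℕ) + 1, by omega⟩
    have h1 := ih j (by simp [j]; omega)
    have h2 := ha.anti i j (by simp [j, Fin.lt_def])
    simp only [delta, j] at h1 h2 ⊢
    push_cast at h1
    omega

lemma IsBeta.delta_le' {a : Fin N → ℤ} (ha : IsBeta n a) (i : Fin N) : delta N i ≤ a i :=
  ha.delta_le (N - 1 - i) i (by have := i.isLt; omega)

lemma IsBeta.eq_delta {a : Fin N → ℤ} (ha : IsBeta 0 a) : a = delta N := by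
  funext i
  have h : ∀ j ∈ (univ : Finset (Fin N)), 0 ≤ a j - delta N j :=
    fun j _ => by have := ha.delta_le' j; omega
  have hs : ∑ j, (a j - delta N j) = 0 := by
    rw [sum_sub_distrib, ha.total]; simp
  have := (sum_eq_zero_iff_of_nonneg h).mp hs i (mem_univ i)
  omega

lemma eps_zero {a : Fin N → ℤ} (ha : IsBeta 0 a) : eps a 0 = 1 := by
  rw [ha.eq_delta, eps, sum_eq_single 1]
  · simp
  · intro w _ hw
    rw [if_neg, mul_zero]
    intro h
    refine hw (Equiv.ext fun j => ?_)
    have := h j
    simp only [delta, Pi.zero_apply, Perm.one_apply] at this ⊢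
    exact Fin.ext (by omega)
  · simp

lemma kost_perm (v : Perm (Fin N)) :
    ∀ (k : ℕ) (a : Fin N → ℤ) (c : Fin k → ℕ),
      kost N k (a ∘ v) c = (Perm.sign v : ℤ) * kost N k a c := by
  intro k
  induction k with
  | zero => intro a c; exact eps_perm a v 0
  | succ k ih =>
    intro a c
    rw [kost, kost, mul_sum]
    refine Finset.sum_bij' (fun e _ => e ∘ v.symm) (fun e _ => e ∘ v) ?_ ?_ ?_ ?_ ?_
    · intro e he; simp only [mem_piAntidiag, mem_univ, implies_true, and_true] at he ⊢
      rw [← he]; exact Equiv.sum_comp v.symm e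
    · intro e he; simp only [mem_piAntidiag, mem_univ, implies_true, and_true] at he ⊢
      rw [← he]; exact Equiv.sum_comp v e
    · intro e _; funext x; simp
    · intro e _; funext x; simp
    · intro e _
      rw [← ih]
      congr 1
      funext x; simp

lemma kost_eq_zero_of_neg : ∀ (k : ℕ) (a : Fin N → ℤ) (c : Fin k → ℕ) (i : Fin N),
    a i < 0 → kost N k a c = 0 := by
  intro k
  induction k with
  | zero => intro a c i hi; exact eps_eq_zero_of_neg a hi 0
  | succ k ih =>
    intro a c i hi
    exact sum_eq_zero fun e _ => ih _ _ i (by omega)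

/-- `b` is obtained from `a` by removing a horizontal strip. -/
def Interlace (a b : Fin N → ℤ) : Prop :=
  ∀ i, 0 ≤ b i ∧ ∀ j : Fin N, (j : ℕ) = i + 1 → a j < b i

/-- Pieri: only horizontal strips survive. -/
theorem kost_succ {a : Fin N → ℤ} (ha : IsBeta n a) (c : Fin (k + 1) → ℕ)
    [DecidablePred fun e : Fin N → ℕ => Interlace a (fun i => a i - e i)] :
    kost N (k + 1) a c =
      ∑ e ∈ (piAntidiag (univ : Finset (Fin N)) (c (Fin.last k))).filter
        (fun e => Interlace a (fun i => a i - e i)),
        kost N k (fun i => a i - e i) (c ∘ Fin.castSucc) := by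
  classical
  rw [kost, ← sum_filter_add_sum_filter_not _ (fun e => Interlace a (fun i => a i - e i))]
  suffices h : ∑ e ∈ (piAntidiag (univ : Finset (Fin N)) (c (Fin.last k))).filter
      (fun e => ¬ Interlace a (fun i => a i - e i)),
      kost N k (fun i => a i - e i) (c ∘ Fin.castSucc) = 0 by rw [h, add_zero]
  rw [← sum_filter_add_sum_filter_not _ (fun e : Fin N → ℕ => ∃ i, a i - e i < 0)]
  rw [sum_eq_zero (fun e he => ?_), zero_add]
  swap
  · obtain ⟨i, hi⟩ := (mem_filter.mp he).2
    exact kost_eq_zero_of_neg k _ _ i hi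
  set s := ((piAntidiag (univ : Finset (Fin N)) (c (Fin.last k))).filter
      (fun e => ¬ Interlace a (fun i => a i - e i))).filter
      (fun e : Fin N → ℕ => ¬ ∃ i, a i - e i < 0) with hs
  have key : ∀ e ∈ s, ∃ i : Fin N, ∃ j : Fin N, (j : ℕ) = i + 1 ∧ a i - e i ≤ a j ∧
      ∀ i' : Fin N, i' < i → ∀ j' : Fin N, (j' : ℕ) = i' + 1 → a j' < a i' - e i' := by
    intro e he
    simp only [hs, mem_filter, not_exists, not_lt] at he
    have hex : ((univ : Finset (Fin N)).filter
        fun i : Fin N => ∃ j : Fin N, (j : ℕ) = i + 1 ∧ a i - e i ≤ a j).Nonempty := by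
      by_contra hc
      rw [not_nonempty_iff_eq_empty, filter_eq_empty_iff] at hc
      exact he.1.2 fun i => ⟨he.2 i, fun j hj => not_le.mp fun hle =>
        hc (mem_univ i) ⟨j, hj, hle⟩⟩
    obtain ⟨j, hj, hle⟩ := (mem_filter.mp (min'_mem _ hex)).2
    refine ⟨_, j, hj, hle, fun i' hi' j' hj' => not_le.mp fun hle' => ?_⟩
    exact absurd (min'_le _ i' (mem_filter.mpr ⟨mem_univ _, j', hj', hle'⟩)) (not_le.mpr hi')
  choose fi fj hfj hfle hfmin using key
  let flip : ∀ e ∈ s, Fin N → ℕ := fun e he l =>
    (a l - (a (Equiv.swap (fi e he) (fj e he) l) - e (Equiv.swap (fi e he) (fj e he) l))).toNat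
  have hflip : ∀ e he l, (flip e he l : ℤ) =
      a l - (a (Equiv.swap (fi e he) (fj e he) l) - e (Equiv.swap (fi e he) (fj e he) l)) := by
    intro e he l
    simp only [flip]
    refine Int.toNat_of_nonneg ?_
    have h1 := hfj e he
    have h2 := hfle e he
    have h3 := ha.anti (fi e he) (fj e he) (by rw [Fin.lt_def]; omega)
    rcases eq_or_ne l (fi e he) with rfl | hi
    · rw [Equiv.swap_apply_left]; omega
    rcases eq_or_ne l (fj e he) with rfl | hj
    · rw [Equiv.swap_apply_right]; omega
    rw [Equiv.swap_apply_of_ne_of_ne hi hj]; omega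
  have hval : ∀ e he, (fun l => a l - (flip e he l : ℤ)) =
      (fun l => a l - e l) ∘ Equiv.swap (fi e he) (fj e he) := by
    intro e he; funext l; simp [hflip]
  have hmem : ∀ e he, flip e he ∈ s := by
    intro e he
    have he' := he
    simp only [hs, mem_filter, mem_piAntidiag, mem_univ, implies_true, and_true, not_exists,
      not_lt] at he' ⊢
    refine ⟨⟨?_, ?_⟩, fun i => ?_⟩
    · zify
      have h1 : ∀ l, (flip e he l : ℤ) = a l - (fun x => a x - (e x : ℤ))
          (Equiv.swap (fi e he) (fj e he) l) := hflip e he
      simp only [h1, sum_sub_distrib]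
      have hh := Equiv.sum_comp (Equiv.swap (fi e he) (fj e he)) fun x => a x - (e x : ℤ)
      simp only [sum_sub_distrib] at hh ⊢
      have : ((∑ x, e x : ℕ) : ℤ) = c (Fin.last k) := by rw [he'.1.1]
      push_cast at this
      omega
    · intro hint
      have h2 := (hint (fi e he)).2 (fj e he) (hfj e he)
      have h1 := congrFun (hval e he) (fi e he)
      simp only [Function.comp_apply, Equiv.swap_apply_left] at h1 h2
      have := Int.natCast_nonneg (e (fj e he))
      omega
    · have h1 := congrFun (hval e he) i
      simp only [Function.comp_apply] at h1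
      have := he'.2 (Equiv.swap (fi e he) (fj e he) i)
      omega
  refine Finset.sum_involution flip ?_ ?_ hmem ?_
  · intro e he
    have hne : fi e he ≠ fj e he := by
      intro h; have := hfj e he; rw [h] at this; omega
    rw [hval, kost_perm, Perm.sign_swap hne]
    simp
  · intro e he hne heq
    apply hne
    have h1 := hval e he
    rw [heq] at h1
    have h2 := kost_perm (Equiv.swap (fi e he) (fj e he)) k (fun l => a l - e l)
      (c ∘ Fin.castSucc)
    rw [← h1, Perm.sign_swap] at h2
    · simp at h2; omega
    · intro h; have := hfj e he; rw [h] at this; omega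
  · intro e he
    have hm := hmem e he
    have hii : fi _ hm = fi e he := by
      apply le_antisymm
      · by_contra hlt
        have h2 := hfmin _ hm (fi e he) (not_le.mp hlt) (fj e he) (hfj e he)
        have h1 := congrFun (hval e he) (fi e he)
        simp only [Function.comp_apply, Equiv.swap_apply_left] at h1
        have := Int.natCast_nonneg (e (fj e he))
        omega
      · by_contra hlt
        have hlt := not_le.mp hlt
        have h3 := hfle _ hm
        have h4 := hfj _ hm
        have h5 := hfj e he
        have h2 := hfmin e he _ hlt _ h4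
        have h1 := congrFun (hval e he) (fi _ hm)
        have h6 : fi _ hm ≠ fi e he := ne_of_lt hlt
        have h7 : fi _ hm ≠ fj e he := by
          intro h; rw [Fin.lt_def, h] at hlt; omega
        simp only [Function.comp_apply, Equiv.swap_apply_of_ne_of_ne h6 h7] at h1
        omega
    have hjj : fj _ hm = fj e he := Fin.ext (by rw [hfj _ hm, hfj e he, hii])
    funext l
    have h1 := hflip _ hm l
    rw [hflip e he, hii, hjj] at h1
    simp only [Equiv.swap_apply_self] at h1
    omega

/-- `a` lies outside the first `k` rows. -/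
def RowsLE (k : ℕ) (a : Fin N → ℤ) : Prop := ∀ i : Fin N, k ≤ (i : ℕ) → a i = delta N i

lemma Interlace.isBeta {a : Fin N → ℤ} (ha : IsBeta n a) {e : Fin N → ℕ}
    (h : Interlace a (fun i => a i - e i)) :
    ∃ m, IsBeta m (fun i => a i - e i) ∧ (m : ℤ) = n - ∑ i, (e i : ℤ) := by
  have anti : ∀ i j : Fin N, i < j → a j - e j < a i - e i := by
    intro i j hij
    have hlt : (i : ℕ) < j := hij
    let i1 : Fin N := ⟨(i : ℕ) + 1, by omega⟩
    have h1 : a i1 < a i - e i := (h i).2 i1 rfl
    have h2 : a j ≤ a i1 := by
      rcases eq_or_lt_of_le (show i1 ≤ j from by simp [i1, Fin.le_def]; omega) with h' | h'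
      · rw [h']
      · exact (ha.anti _ _ h').le
    omega
  let S := ∑ i, (a i - e i - delta N i)
  have hS : 0 ≤ S := by
    refine sum_nonneg fun i _ => ?_
    have aux : ∀ (d : ℕ) (i : Fin N), (i : ℕ) + d + 1 = N → delta N i ≤ a i - e i := by
      intro d
      induction d with
      | zero => intro i hi; have := (h i).1; simp only [delta] at this ⊢; omega
      | succ d ih =>
        intro i hi
        let j : Fin N := ⟨(i : ℕ) + 1, by omega⟩
        have h1 := ih j (by simp [j]; omega)
        have h2 := anti i j (by simp [j, Fin.lt_def])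
        simp only [delta, j] at h1 h2 ⊢
        push_cast at h1
        omega
    have := aux (N - 1 - i) i (by have := i.isLt; omega)
    omega
  refine ⟨S.toNat, ⟨anti, fun i => (h i).1, ?_⟩, ?_⟩ <;> rw [Int.toNat_of_nonneg hS] <;>
    simp only [S, sum_sub_distrib] <;> have := ha.total <;> omega

/-- Prefix sums. -/
def pre (j : ℕ) (f : Fin k → ℤ) : ℤ := ∑ i : Fin k, if (i : ℕ) < j then f i else 0

lemma pre_mono {f g : Fin k → ℤ} (h : ∀ i, f i ≤ g i) (j : ℕ) : pre j f ≤ pre j g :=
  sum_le_sum fun i _ => by split_ifs; exacts [h i, le_rfl]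

lemma pre_all {f : Fin k → ℤ} {j : ℕ} (h : k ≤ j) : pre j f = ∑ i, f i :=
  sum_congr rfl fun i _ => if_pos (lt_of_lt_of_le i.isLt h)

/-- A nonzero Kostka number forces dominance. -/
theorem kost_ne_zero : ∀ (k : ℕ) {n : ℕ} (a : Fin N → ℤ) (c : Fin k → ℕ), IsBeta n a →
    ∑ i, c i = n → kost N k a c ≠ 0 →
    RowsLE k a ∧ ∀ j, pre j (fun i => (c i : ℤ)) ≤ pre j (fun i => a i - delta N i) := by
  classical
  intro k
  induction k with
  | zero =>
    intro n a c ha hc _
    have hn : n = 0 := by simpa using hc.symm
    subst hn
    rw [ha.eq_delta]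
    exact ⟨fun i _ => rfl, fun j => by simp [pre]⟩
  | succ k ih =>
    intro n a c ha hc hne
    rw [kost_succ ha] at hne
    obtain ⟨e, he, hne'⟩ := exists_ne_zero_of_sum_ne_zero hne
    rw [mem_filter, mem_piAntidiag] at he
    obtain ⟨m, hm, hmn⟩ := he.2.isBeta ha
    have hsum : (∑ i, (e i : ℤ)) = c (Fin.last k) := by exact_mod_cast he.1.1
    have hcm : ∑ i : Fin k, (c ∘ Fin.castSucc) i = m := by
      rw [Fin.sum_univ_castSucc] at hc
      zify at hc ⊢
      simp only [Function.comp_apply]
      omega
    obtain ⟨hr, hp⟩ := ih _ _ hm hcm hne'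
    have hrows : RowsLE (k + 1) a := by
      intro i hi
      let i0 : Fin N := ⟨(i : ℕ) - 1, by omega⟩
      have h1 : a i < a i0 - e i0 := (he.2 i0).2 i (by simp [i0]; omega)
      have h2 : a i0 - e i0 = delta N i0 := hr i0 (by simp [i0]; omega)
      have h3 := ha.delta_le' i
      simp only [delta, i0] at h1 h2 h3 ⊢
      omega
    refine ⟨hrows, fun j => ?_⟩
    by_cases hj : j ≤ k
    · refine le_trans (le_trans (le_of_eq ?_) (hp j)) (pre_mono (fun i => by omega) j)
      simp only [pre, Fin.sum_univ_castSucc, Fin.val_castSucc, Fin.val_last, Function.comp_apply]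
      rw [if_neg (by omega : ¬ k < j), add_zero]
    · rw [pre_all (by omega)]
      have : pre j (fun i => a i - delta N i) = ∑ i, (a i - delta N i) := by
        refine sum_congr rfl fun i _ => ?_
        split_ifs with h
        · rfl
        · rw [hrows i (by omega), sub_self]
      rw [this, sum_sub_distrib, ha.total]
      have : ((∑ i, c i : ℕ) : ℤ) = n := by rw [hc]
      push_cast at this
      omega

/-- The diagonal Kostka number is `1`. -/
theorem kost_diag : ∀ (k : ℕ) {n : ℕ} (hk : k ≤ N) (a : Fin N → ℤ) (c : Fin k → ℕ), IsBeta n a →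
    RowsLE k a → (∀ i, (c i : ℤ) = a (Fin.castLE hk i) - delta N (Fin.castLE hk i)) →
    kost N k a c = 1 := by
  classical
  intro k
  induction k with
  | zero =>
    intro n hk a c ha hr _
    have hn : n = 0 := by
      have := ha.total
      rw [show a = delta N from funext fun i => hr i (Nat.zero_le _)] at this
      omega
    subst hn
    exact eps_zero ha
  | succ k ih =>
    intro n hk a c ha hr hc
    let kk : Fin N := ⟨k, by omega⟩
    have hlast : (c (Fin.last k) : ℤ) = a kk - delta N kk := hc (Fin.last k)
    let e₀ : Fin N → ℕ := fun i => if i = kk then c (Fin.last k) else 0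
    have he₀ : e₀ ∈ (piAntidiag (univ : Finset (Fin N)) (c (Fin.last k))).filter
        (fun e => Interlace a (fun i => a i - e i)) := by
      rw [mem_filter, mem_piAntidiag]
      refine ⟨⟨by simp [e₀], by simp⟩, fun i => ⟨?_, fun j hj => ?_⟩⟩
      · simp only [e₀]; split_ifs with h
        · subst h; have := delta_nonneg kk; omega
        · simpa using ha.nonneg i
      · simp only [e₀]; split_ifs with h
        · subst h
          rw [hr j (by simp only [kk] at hj; omega)]
          have := delta_strictAnti (i := kk) (j := j) (by rw [Fin.lt_def]; omega)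
          omega
        · have := ha.anti i j (by rw [Fin.lt_def]; omega); push_cast; omega
    have hb₀ : RowsLE k (fun i => a i - e₀ i) := by
      intro i hi
      simp only [e₀]; split_ifs with h
      · subst h; omega
      · rw [hr i (by
          rcases Nat.lt_or_ge k i with h' | h'
          · omega
          · exact absurd (Fin.ext (by simp [kk]; omega)) h)]
        simp
    rw [kost_succ ha, sum_eq_single_of_mem e₀ he₀]
    · obtain ⟨m, hm, -⟩ := (mem_filter.mp he₀).2.isBeta ha
      refine ih (by omega) _ _ hm hb₀ fun i => ?_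
      have hne : Fin.castLE (by omega : k ≤ N) i ≠ kk := by
        simp [Fin.ext_iff, kk]; omega
      simp only [Function.comp_apply, e₀, if_neg hne]
      rw [hc (Fin.castSucc i)]
      simp
    · intro e he hne
      by_contra hk0
      rw [mem_filter, mem_piAntidiag] at he
      obtain ⟨m, hm, hmn⟩ := he.2.isBeta ha
      have hsum : (∑ i, (e i : ℤ)) = c (Fin.last k) := by exact_mod_cast he.1.1
      have hcn : (∑ i, c i : ℕ) = n := by
        zify
        rw [sum_congr rfl fun i _ => hc i]
        have h1 : ∑ i : Fin N, (a i - delta N i) =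
            ∑ i : Fin (k + 1), (a (Fin.castLE hk i) - delta N (Fin.castLE hk i)) := by
          symm
          refine Finset.sum_of_injOn (Fin.castLE hk) (Fin.castLE_injective hk).injOn
            (fun _ _ => mem_univ _) (fun i _ hi => ?_) (fun _ _ => rfl)
          rw [hr i (by
            by_contra hlt
            exact hi ⟨⟨i, by omega⟩, mem_coe.mpr (mem_univ _), Fin.ext rfl⟩), sub_self]
        rw [← h1, sum_sub_distrib, ha.total]
        omega
      have hcm : ∑ i : Fin k, (c ∘ Fin.castSucc) i = m := by
        rw [Fin.sum_univ_castSucc] at hcn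
        zify at hcn ⊢
        simp only [Function.comp_apply]
        omega
      obtain ⟨hrow, hp⟩ := kost_ne_zero k _ _ hm hcm hk0
      apply hne
      have hz : ∀ i : Fin N, (i : ℕ) < k → e i = 0 := by
        have h := hp k
        rw [pre_all le_rfl] at h
        have h2 : pre k (fun i => a i - delta N i) =
            ∑ i : Fin k, (((c ∘ Fin.castSucc) i : ℕ) : ℤ) := by
          symm
          refine Finset.sum_of_injOn (Fin.castLE (by omega : k ≤ N))
            (Fin.castLE_injective _).injOn (fun _ _ => mem_univ _) (fun i _ hi => ?_)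
            (fun i _ => ?_)
          · rw [if_neg fun hlt => hi ⟨⟨i, hlt⟩, mem_coe.mpr (mem_univ _), Fin.ext rfl⟩]
          · simp [hc (Fin.castSucc i)]
        have h3 : pre k (fun i => a i - e i - delta N i) =
            pre k (fun i => a i - delta N i) - pre k (fun i => (e i : ℤ)) := by
          simp only [pre, ← sum_sub_distrib]
          exact sum_congr rfl fun i _ => by split_ifs <;> ring
        rw [h3, h2] at h
        have h4 : pre k (fun i => (e i : ℤ)) = 0 := by
          have : 0 ≤ pre k (fun i => (e i : ℤ)) :=
            sum_nonneg fun i _ => by split_ifs <;> simp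
          omega
        intro i hi
        have := (sum_eq_zero_iff_of_nonneg (fun i _ => by split_ifs <;> simp)).mp h4 i (mem_univ i)
        simpa [hi] using this
      funext i
      simp only [e₀]
      rcases lt_trichotomy (i : ℕ) k with h | h | h
      · rw [if_neg (by simp [Fin.ext_iff, kk]; omega), hz i h]
      · have hik : i = kk := Fin.ext h
        rw [if_pos hik]
        have h1 := hrow kk le_rfl
        simp only [hik] at h1 ⊢
        omega
      · rw [if_neg (by simp [Fin.ext_iff, kk]; omega)]
        have h1 := hrow i (by omega)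
        have h2 := hr i (by omega)
        simp only at h1
        omega

section Inner

variable {α : Type} [Fintype α] [DecidableEq α]

/-- Averaging over a Young subgroup, with the factorials removed. -/
lemma kost_comp_perm {n : ℕ} (a : Fin N → ℤ) (c : Fin k → ℕ) (hc : ∑ i, c i = n)
    (v : Perm (Fin k)) : kost N k a (c ∘ v) = kost N k a c := by
  obtain ⟨g, hg⟩ := exists_cnt_eq (α := Fin n) c (by simpa using hc)
  have h1 := sum_stab_chi k a g
  have hcv : cnt (v.symm ∘ g) = c ∘ v := by
    funext j
    have := cnt_perm_comp g v.symm (v j)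
    simpa [hg] using this
  have h2 := sum_stab_chi k a (v.symm ∘ g)
  have hs : stab (v.symm ∘ g) = stab g := by
    ext π; simp [Function.comp_assoc, (v.symm.injective.comp_left).eq_iff]
  rw [hs, h1, hcv, hg] at h2
  have hp : ∏ j, (((c ∘ v) j).factorial : ℤ) = ∏ j, ((c j).factorial : ℤ) :=
    Equiv.prod_comp v fun j => ((c j).factorial : ℤ)
  rw [hp] at h2
  exact (mul_left_cancel₀ (prod_ne_zero_iff.mpr fun j _ => by positivity) h2).symm

/-- Pairing a character with a signed sum of permutation characters. -/
lemma sum_chi_mul_chi_eq (a b : Fin N → ℤ) :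
    ∑ π : Perm α, chi a π * chi b π = (Fintype.card α).factorial *
      ∑ w : Perm (Fin N), (Perm.sign w : ℤ) *
        ∑ c ∈ (piAntidiag (univ : Finset (Fin N)) (Fintype.card α)).filter
          (fun c : Fin N → ℕ => ∀ j, b (w j) = c j + delta N j), kost N N a c := by
  have hgc : ∀ g ∈ (univ : Finset (α → Fin N)),
      cnt g ∈ piAntidiag (univ : Finset (Fin N)) (Fintype.card α) := fun g _ => by simp [sum_cnt]
  have h : ∑ π : Perm α, chi a π * chi b π =
      ∑ g : α → Fin N, eps b (cnt g) * ∑ π ∈ stab g, chi a π := by
    simp only [show ∀ π : Perm α, chi b π = ∑ g ∈ fixedCol N π, eps b (cnt g) from fun π => rfl,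
      mul_sum, fixedCol, stab, sum_filter]
    rw [sum_comm]
    refine sum_congr rfl fun g _ => sum_congr rfl fun π _ => ?_
    split_ifs <;> ring
  rw [h, ← sum_fiberwise_of_maps_to hgc]
  simp_rw [mul_sum, sum_filter]
  rw [sum_comm (γ := Perm (Fin N))]
  refine sum_congr rfl fun c hc => ?_
  have hcard : ∑ j, c j = Fintype.card α := by simpa using hc
  have h1 : ∀ g : α → Fin N, (if cnt g = c then
      ∑ π : Perm α, (if g ∘ π = g then eps b (cnt g) * chi a π else 0) else 0) =
      (if cnt g = c then eps b c * ((∏ j, ((c j).factorial : ℤ)) * kost N N a c) else 0) := by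
    intro g
    split_ifs with hg
    · have := sum_stab_chi N a g
      rw [stab, sum_filter, hg] at this
      rw [← this, mul_sum]
      refine sum_congr rfl fun π _ => ?_
      split_ifs <;> simp [hg]
    · rfl
  simp only [stab, sum_filter] at h1 ⊢
  rw [sum_congr rfl fun g _ => h1 g, ← sum_filter, sum_const, nsmul_eq_mul,
    ← card_cnt_mul_prod c hcard]
  push_cast
  simp only [eps, sum_mul, mul_sum]
  refine sum_congr rfl fun w _ => ?_
  split_ifs <;> ring

lemma pre_perm_le {b : Fin N → ℤ} {w : Perm (Fin N)} {c : Fin N → ℕ}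
    (hc : ∀ j, b (w j) = c j + delta N j) (j : ℕ) :
    ∃ v : Perm (Fin N), pre j (fun i => b i - delta N i) ≤
      pre j (fun i => ((c ∘ v) i : ℤ)) ∧
      (pre j (fun i => b i - delta N i) = pre j (fun i => ((c ∘ v) i : ℤ)) →
        pre j (fun i => delta N (w.symm i)) = pre j (delta N)) := by
  refine ⟨w.symm, ?_⟩
  have hval : ∀ i, ((c ∘ w.symm) i : ℤ) = b i - delta N (w.symm i) := fun i => by
    have := hc (w.symm i); rw [Equiv.apply_symm_apply] at this
    simp only [Function.comp_apply]; omega
  have h1 : pre j (fun i => ((c ∘ w.symm) i : ℤ)) - pre j (fun i => b i - delta N i) =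
      pre j (delta N) - pre j (fun i => delta N (w.symm i)) := by
    simp only [pre, ← sum_sub_distrib]
    refine sum_congr rfl fun i _ => ?_
    split_ifs
    · rw [hval]; ring
    · ring
  have h2 : pre j (fun i => delta N (w.symm i)) ≤ pre j (delta N) := by
    have hm : Monovary (fun i : Fin N => if (i : ℕ) < j then (1 : ℤ) else 0) (delta N) := by
      intro x y hxy
      simp only
      have : (y : ℕ) < x := by unfold delta at hxy; omega
      split_ifs <;> omega
    have := hm.sum_mul_comp_perm_le_sum_mul (σ := w.symm)
    simpa [pre, ite_mul] using this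
  exact ⟨by omega, fun he => by omega⟩

/-- Orthonormality of the Frobenius characters. -/
theorem sum_chi_mul_chi {a b : Fin N → ℤ} (ha : IsBeta (Fintype.card α) a)
    (hb : IsBeta (Fintype.card α) b) :
    ∑ π : Perm α, chi a π * chi b π =
      if a = b then ((Fintype.card α).factorial : ℤ) else 0 := by
  set n := Fintype.card α with hn
  -- dominance forced by a nonzero term
  have dom : ∀ {a b : Fin N → ℤ}, IsBeta n a → IsBeta n b →
      ∀ (w : Perm (Fin N)) (c : Fin N → ℕ), ∑ i, c i = n → (∀ j, b (w j) = c j + delta N j) →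
      kost N N a c ≠ 0 → ∀ j, pre j (fun i => b i - delta N i) ≤ pre j (fun i => a i - delta N i) ∧
        (pre j (fun i => a i - delta N i) = pre j (fun i => b i - delta N i) →
          pre j (fun i => delta N (w.symm i)) = pre j (delta N)) := by
    intro a b ha hb w c hc hw hk j
    obtain ⟨v, hv, hveq⟩ := pre_perm_le hw j
    rw [← kost_comp_perm a c hc v] at hk
    have h2 := (kost_ne_zero N a (c ∘ v) ha ((Equiv.sum_comp v c).trans hc) hk).2 j
    exact ⟨hv.trans h2, fun he => hveq (le_antisymm hv (h2.trans_eq he))⟩
  have inj : ∀ {a b : Fin N → ℤ}, (∀ j, pre j (fun i => a i - delta N i) =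
      pre j (fun i => b i - delta N i)) → a = b := by
    intro a b h
    funext i
    have step : ∀ f : Fin N → ℤ, pre ((i : ℕ) + 1) f - pre i f = f i := by
      intro f
      simp only [pre, ← sum_sub_distrib]
      rw [sum_eq_single i]
      · simp
      · intro x _ hx
        have : (x : ℕ) ≠ i := fun h => hx (Fin.ext h)
        split_ifs <;> omega
      · simp
    have h1 := step fun i => a i - delta N i
    have h2 := step fun i => b i - delta N i
    rw [h, h] at h1
    omega
  by_cases hab : a = b
  · subst hab
    rw [if_pos rfl, sum_chi_mul_chi_eq, ← hn]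
    let c₀ : Fin N → ℕ := fun i => (a i - delta N i).toNat
    have hc₀ : ∀ i, (c₀ i : ℤ) = a i - delta N i := fun i => by
      have := ha.delta_le' i; simp only [c₀]; omega
    rw [sum_eq_single 1, sum_eq_single c₀]
    · rw [kost_diag N le_rfl a c₀ ha (fun i hi => absurd i.isLt (not_lt.mpr hi))
        (fun i => by simpa using hc₀ i)]
      simp
    · intro c hc hne
      rw [mem_filter] at hc
      refine absurd (funext fun i => ?_) hne
      have := hc.2 i
      have := hc₀ i
      simp only [Perm.one_apply] at *
      omega
    · intro h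
      refine absurd (mem_filter.mpr ⟨?_, fun i => by have := hc₀ i; simp; omega⟩) h
      rw [mem_piAntidiag]
      refine ⟨?_, by simp⟩
      have : ((∑ i, c₀ i : ℕ) : ℤ) = n := by
        push_cast
        rw [sum_congr rfl fun i _ => hc₀ i, sum_sub_distrib, ha.total]
        ring
      exact_mod_cast this
    · intro w _ hw
      rw [sum_eq_zero, mul_zero]
      intro c hc
      rw [mem_filter, mem_piAntidiag] at hc
      by_contra hk
      apply hw
      have hd : delta N = fun i => delta N (w.symm i) := by
        funext i
        have := inj (a := fun i => delta N i + delta N i)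
          (b := fun i => delta N (w.symm i) + delta N i) fun j => by
            simpa using ((dom ha ha w c hc.1.1 hc.2 hk j).2 rfl).symm
        have := congrFun this i
        omega
      refine Equiv.ext fun i => ?_
      have := congrFun hd (w i)
      simp only [Equiv.symm_apply_apply, delta] at this
      simp only [Perm.one_apply]
      exact Fin.ext (by omega)
    · simp
  · rw [if_neg hab]
    have vanish : ∀ {a b : Fin N → ℤ}, IsBeta n a → IsBeta n b →
        ¬ (∀ j, pre j (fun i => b i - delta N i) ≤ pre j (fun i => a i - delta N i)) →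
        ∑ π : Perm α, chi a π * chi b π = 0 := by
      intro a b ha hb h
      rw [sum_chi_mul_chi_eq, sum_eq_zero, mul_zero]
      intro w _
      rw [sum_eq_zero, mul_zero]
      intro c hc
      rw [mem_filter, mem_piAntidiag] at hc
      by_contra hk
      exact h fun j => (dom ha hb w c hc.1.1 hc.2 hk j).1
    by_cases h : ∀ j, pre j (fun i => b i - delta N i) ≤ pre j (fun i => a i - delta N i)
    · simp_rw [mul_comm (chi a _)]
      refine vanish hb ha fun h' => hab (inj fun j => le_antisymm (h' j) (h j))
    · exact vanish ha hb h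

end Inner

end Vale.Agent.P197.SymChar
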