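import Vale.Agent.P197.SymChar.Irreducible

/-!
# Specht modules

For a tableau (a map `T : Fin n → Fin n` sending each entry to its row) of shape `p`, the left
ideal of the group algebra generated by the Young symmetrizer `a_T * b_T` has character `chiP p`.
-/

open Finset Equiv Representation

namespace Vale.Agent.P197.SymChar

variable {n : ℕ}

/-- `T` lists, for each entry, its row; the shape of `T` is `p`. -/
def IsTableau (p : n.Partition) (T : Fin n → Fin n) : Prop := ∀ i : Fin n, cnt T i = row p i

lemma sum_row (p : n.Partition) : ∑ i : Fin n, row p i = n := by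
  have h := (isBeta_beta p).total
  simp only [beta, sum_add_distrib] at h
  have : (∑ i : Fin n, (row p i : ℤ)) = n := by omega
  exact_mod_cast this

lemma exists_isTableau (p : n.Partition) : ∃ T, IsTableau p T := by
  obtain ⟨T, hT⟩ := exists_cnt_eq (α := Fin n) (fun i : Fin n => row p i) (by simpa using sum_row p)
  exact ⟨T, congrFun hT⟩

/-- The column of an entry: its position within its row. -/
def colOf (T : Fin n → Fin n) (x : Fin n) : ℕ := #{y | T y = T x ∧ y < x}

lemma row_col_injective (T : Fin n → Fin n) {x y : Fin n} (h1 : T x = T y)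
    (h2 : colOf T x = colOf T y) : x = y := by
  by_contra hne
  wlog hxy : x < y generalizing x y
  · exact this h1.symm h2.symm (Ne.symm hne) (lt_of_le_of_ne (not_lt.mp hxy) (Ne.symm hne))
  have hss : Finset.univ.filter (fun z => T z = T x ∧ z < x) ⊂
      Finset.univ.filter (fun z => T z = T y ∧ z < y) := by
    rw [Finset.ssubset_iff_of_subset]
    · exact ⟨x, by simp [h1, hxy], by simp⟩
    · intro z hz
      simp only [mem_filter, mem_univ, true_and] at hz ⊢
      exact ⟨hz.1.trans h1, hz.2.trans hxy⟩
  exact (card_lt_card hss).ne h2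

/-- Row group. -/
def rowGroup (T : Fin n → Fin n) : Subgroup (Perm (Fin n)) where
  carrier := {π | T ∘ π = T}
  one_mem' := rfl
  mul_mem' {a b} ha hb := by
    show T ∘ (a * b) = T
    rw [Perm.coe_mul, ← Function.comp_assoc, (ha : T ∘ a = T), (hb : T ∘ b = T)]
  inv_mem' {a} ha := by
    funext x
    have := congrFun (ha : T ∘ a = T) (a⁻¹ x)
    simpa using this.symm

/-- The group algebra. -/
abbrev GA (n : ℕ) := MonoidAlgebra ℂ (Perm (Fin n))

/-- The row symmetrizer. -/
noncomputable def rowSym (T : Fin n → Fin n) : GA n :=
  ∑ r ∈ stab T, MonoidAlgebra.single r 1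

/-- The column antisymmetrizer. -/
noncomputable def colSym (T : Fin n → Fin n) : GA n :=
  ∑ c ∈ ({π | colOf T ∘ π = colOf T} : Finset (Perm (Fin n))),
    MonoidAlgebra.single c ((Perm.sign c : ℤ) : ℂ)

/-- The Young symmetrizer. -/
noncomputable def youngSym (T : Fin n → Fin n) : GA n := rowSym T * colSym T

/-- The left regular representation. -/
noncomputable def regRep (n : ℕ) : Representation ℂ (Perm (Fin n)) (GA n) where
  toFun g := LinearMap.mulLeft ℂ (MonoidAlgebra.single g 1)
  map_one' := by rw [← MonoidAlgebra.one_def, LinearMap.mulLeft_one]; rfl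
  map_mul' g h := by ext x; simp [← mul_assoc, MonoidAlgebra.single_mul_single]

/-- The Specht module `ℂ[S_n] * e_T`. -/
noncomputable def specht (T : Fin n → Fin n) : Subrepresentation (regRep n) where
  toSubmodule := Submodule.span ℂ (Set.range fun g => MonoidAlgebra.single g 1 * youngSym T)
  apply_mem_toSubmodule g v hv := by
    induction hv using Submodule.span_induction with
    | mem x hx =>
      obtain ⟨h, rfl⟩ := hx
      refine Submodule.subset_span ⟨g * h, ?_⟩
      simp [regRep, ← mul_assoc, MonoidAlgebra.single_mul_single]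
    | zero => simp
    | add x y _ _ hx hy => rw [map_add]; exact add_mem hx hy
    | smul c x _ hx => rw [map_smul]; exact Submodule.smul_mem _ c hx

lemma youngSym_mem (T : Fin n → Fin n) : youngSym T ∈ (specht T).toSubmodule :=
  Submodule.subset_span ⟨1, by simp [← MonoidAlgebra.one_def]⟩

lemma youngSym_ne_zero (T : Fin n → Fin n) : youngSym T ≠ 0 := by
  classical
  intro h
  have h1 := congrArg (fun x : GA n => x.coeff 1) h
  simp only [youngSym, rowSym, colSym, sum_mul, mul_sum, MonoidAlgebra.single_mul_single,
    MonoidAlgebra.coeff_sum, Finsupp.finsetSum_apply, MonoidAlgebra.coeff_single,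
    Finsupp.single_apply, MonoidAlgebra.coeff_zero, Finsupp.coe_zero, Pi.zero_apply] at h1
  rw [sum_eq_single 1, sum_eq_single 1] at h1
  · simp at h1
  · intro c _ hc; rw [if_neg (by simpa using hc)]
  · intro hc; exact absurd (by simp [stab]) hc
  · intro c hc hc1
    refine sum_eq_zero fun r hr => if_neg fun he => hc1 ?_
    simp only [mem_stab] at hr
    simp only [mem_filter, mem_univ, true_and] at hc
    have hcr : c = r⁻¹ := eq_inv_of_mul_eq_one_right he
    refine Equiv.ext fun x => row_col_injective T ?_ (congrFun hc x)
    have := congrFun hr (r⁻¹ x)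
    simpa [hcr] using this.symm
  · intro hc; exact absurd (by simp) hc

section Hom

variable {W : Type} [AddCommGroup W] [Module ℂ W] [FiniteDimensional ℂ W]
  (σ : Representation ℂ (Perm (Fin n)) W) (T : Fin n → Fin n)

omit [FiniteDimensional ℂ W] in
lemma intertwining_apply (f : IntertwiningMap (specht T).toRepresentation σ) (g : Perm (Fin n))
    (v : (specht T).toSubmodule) :
    f.toLinearMap ((specht T).toRepresentation g v) = σ g (f.toLinearMap v) :=
  LinearMap.congr_fun (f.isIntertwining' g) v

lemma hom_ext {f f' : IntertwiningMap (specht T).toRepresentation σ}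
    (h : f.toLinearMap ⟨_, youngSym_mem T⟩ = f'.toLinearMap ⟨_, youngSym_mem T⟩) :
    f.toLinearMap = f'.toLinearMap := by
  refine LinearMap.ext fun ⟨v, hv⟩ => ?_
  induction hv using Submodule.span_induction with
  | mem x hx =>
    obtain ⟨g, rfl⟩ := hx
    have h1 := intertwining_apply σ T f g ⟨_, youngSym_mem T⟩
    have h2 := intertwining_apply σ T f' g ⟨_, youngSym_mem T⟩
    rw [h, ← h2] at h1
    exact h1
  | zero => exact (map_zero _).trans (map_zero _).symm
  | add x y hx hy h1 h2 =>
    exact ((map_add f.toLinearMap ⟨x, hx⟩ ⟨y, hy⟩).trans (congrArg₂ (· + ·) h1 h2)).trans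
      (map_add f'.toLinearMap ⟨x, hx⟩ ⟨y, hy⟩).symm
  | smul c x hx h1 =>
    exact ((map_smul f.toLinearMap c ⟨x, hx⟩).trans (congrArg (c • ·) h1)).trans
      (map_smul f'.toLinearMap c ⟨x, hx⟩).symm

/-- Evaluation at the Young symmetrizer. -/
noncomputable def evalYoung : IntertwiningMap (specht T).toRepresentation σ →ₗ[ℂ] W where
  toFun f := f.toLinearMap ⟨_, youngSym_mem T⟩
  map_add' _ _ := rfl
  map_smul' _ _ := rfl

lemma rowGroup_mul_youngSym {r : Perm (Fin n)} (hr : T ∘ r = T) :
    MonoidAlgebra.single r (1 : ℂ) * youngSym T = youngSym T := by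
  rw [youngSym, ← mul_assoc]
  congr 1
  rw [rowSym, mul_sum]
  simp only [MonoidAlgebra.single_mul_single, one_mul]
  refine Finset.sum_equiv (Equiv.mulLeft r) (fun x => ?_) (fun _ _ => rfl)
  simp only [mem_stab, Equiv.coe_mulLeft, Perm.coe_mul]
  rw [← Function.comp_assoc, hr]

lemma finrank_hom_le :
    Module.finrank ℂ (IntertwiningMap (specht T).toRepresentation σ) ≤
      Module.finrank ℂ (invariants (σ.comp (rowGroup T).subtype)) := by
  have hmem : ∀ f, evalYoung σ T f ∈ invariants (σ.comp (rowGroup T).subtype) := by
    intro f r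
    have h1 := intertwining_apply σ T f r.1 ⟨_, youngSym_mem T⟩
    show σ r.1 (evalYoung σ T f) = evalYoung σ T f
    simp only [evalYoung, LinearMap.coe_mk, AddHom.coe_mk]
    rw [← h1]
    congr 1
    exact Subtype.ext (rowGroup_mul_youngSym T r.2)
  refine LinearMap.finrank_le_finrank_of_injective
    (f := (evalYoung σ T).codRestrict _ hmem) ?_
  intro f f' h
  have h1 : f.toLinearMap = f'.toLinearMap := hom_ext σ T (congrArg Subtype.val h)
  cases f; cases f'; simp_all

lemma hom_eq_zero (hb : asAlgebraHom σ (colSym T) = 0)
    (f : IntertwiningMap (specht T).toRepresentation σ) : f = 0 := by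
  classical
  let ι := Subrepresentation.subrepresentationSubmoduleOrderIso (ρ := regRep n)
  have : NeZero (Nat.card (Perm (Fin n)) : ℂ) := ⟨by simp [Nat.card_eq_fintype_card]⟩
  have : ComplementedLattice (Subrepresentation (regRep n)) :=
    ι.complementedLattice_iff.mpr inferInstance
  obtain ⟨U, hU⟩ := exists_isCompl (specht T)
  have hsub : IsCompl (specht T).toSubmodule U.toSubmodule :=
    IsCompl.of_eq (congrArg Subrepresentation.toSubmodule hU.inf_eq_bot)
      (congrArg Subrepresentation.toSubmodule hU.sup_eq_top)
  let ψ : GA n →ₗ[ℂ] W := f.toLinearMap ∘ₗ Submodule.projectionOnto _ _ hsub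
  have hψ : ∀ g x, ψ (MonoidAlgebra.single g 1 * x) = σ g (ψ x) := by
    intro g x
    obtain ⟨⟨v, u⟩, rfl⟩ := (Submodule.prodEquivOfIsCompl _ _ hsub).surjective x
    have hu : regRep n g u.1 ∈ U.toSubmodule := U.apply_mem_toSubmodule g u.2
    have hv : regRep n g v.1 ∈ (specht T).toSubmodule := (specht T).apply_mem_toSubmodule g v.2
    have h1 : Submodule.projectionOnto _ _ hsub
        (MonoidAlgebra.single g 1 * (v.1 + u.1)) = (specht T).toRepresentation g v := by
      rw [mul_add, map_add,
        (show MonoidAlgebra.single g 1 * v.1 = ((⟨_, hv⟩ : (specht T).toSubmodule) : GA n) from rfl),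
        Submodule.projectionOnto_apply_left,
        (show MonoidAlgebra.single g 1 * u.1 = ((⟨_, hu⟩ : U.toSubmodule) : GA n) from rfl),
        Submodule.projectionOnto_apply_right, add_zero]
      rfl
    simp only [ψ, LinearMap.comp_apply, Submodule.coe_prodEquivOfIsCompl', h1, map_add,
      Submodule.projectionOnto_apply_left, Submodule.projectionOnto_apply_right, map_zero,
      add_zero]
    exact intertwining_apply σ T f g v
  have heval : ∀ x, ψ x = asAlgebraHom σ x (ψ 1) := by
    intro x
    induction x using MonoidAlgebra.induction_on with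
    | of g => rw [MonoidAlgebra.of_apply, asAlgebraHom_single_one, ← hψ, mul_one]
    | add x y hx hy => rw [map_add, hx, hy, map_add, LinearMap.add_apply]
    | smul c x hx => rw [map_smul, hx, map_smul, LinearMap.smul_apply]
  have h0 : evalYoung σ T f = 0 := by
    have := heval (youngSym T)
    rw [show asAlgebraHom σ (youngSym T) = 0 by rw [youngSym, map_mul, hb, mul_zero],
      LinearMap.zero_apply] at this
    simp only [ψ, LinearMap.comp_apply] at this
    rw [← Submodule.coe_mk (p := (specht T).toSubmodule) (youngSym T) (youngSym_mem T),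
      Submodule.projectionOnto_apply_left] at this
    exact this
  exact IntertwiningMap.ext (hom_ext σ T (f' := 0) (h0.trans (LinearMap.zero_apply _).symm))

end Hom

/-- Row `i` and column `c` meet in the diagram exactly when `c < λ_i`. -/
lemma exists_cell {p : n.Partition} {T : Fin n → Fin n} (hT : IsTableau p T) (i : Fin n) (c : ℕ) :
    (∃ x, T x = i ∧ colOf T x = c) ↔ c < row p i := by
  classical
  set S : Finset (Fin n) := {x | T x = i}
  have himg : S.image (colOf T) = range (row p i) := by
    apply eq_of_subset_of_card_le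
    · intro c hc
      simp only [mem_image, S, mem_filter, mem_univ, true_and] at hc
      obtain ⟨x, hx, rfl⟩ := hc
      rw [mem_range, ← hT i]
      refine card_lt_card ((Finset.ssubset_iff_of_subset ?_).mpr ⟨x, by simp [hx], by simp⟩)
      intro y hy; simp only [mem_filter, mem_univ, true_and] at hy ⊢; exact hy.1.trans hx
    · rw [card_range, card_image_of_injOn, ← hT i]
      · exact le_rfl
      · intro x hx y hy h
        simp only [S, coe_filter, mem_univ, true_and, Set.mem_ofPred_eq] at hx hy
        exact row_col_injective T (hx.trans hy.symm) h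
  have := Finset.ext_iff.mp himg c
  simpa [S] using this

lemma pre_eq_card {α : Type} [Fintype α] (g : α → Fin n) (j : ℕ) :
    pre j (fun i => (cnt g i : ℤ)) = #{x | (g x : ℕ) < j} := by
  classical
  have h1 : #{x | (g x : ℕ) < j} = ∑ i : Fin n, if (i : ℕ) < j then cnt g i else 0 := by
    rw [card_eq_sum_card_fiberwise (f := g) (t := univ) (fun x _ => mem_univ _)]
    refine sum_congr rfl fun i _ => ?_
    simp only [cnt, filter_filter]
    split_ifs with h
    · exact congrArg card (filter_congr fun x _ => ⟨fun hx => hx.2, fun hx => ⟨by rw [hx]; exact h, hx⟩⟩)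
    · rw [card_eq_zero, filter_eq_empty_iff]
      exact fun x _ hx => h (hx.2 ▸ hx.1)
  rw [h1, pre]
  push_cast
  rfl

/-- Pigeonhole: a colouring of type `q` that is injective on columns forces `q ≤ p`. -/
lemma pre_le_of_injOn {p : n.Partition} {T : Fin n → Fin n} (hT : IsTableau p T)
    (g : Fin n → Fin n) (hg : ∀ x y, colOf T x = colOf T y → g x = g y → x = y) (j : ℕ) :
    pre j (fun i => (cnt g i : ℤ)) ≤ pre j (fun i => (cnt T i : ℤ)) := by
  classical
  rw [pre_eq_card, pre_eq_card, Nat.cast_le,
    card_eq_sum_card_fiberwise (f := colOf T) (t := univ.image (colOf T))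
      (fun x _ => mem_image_of_mem _ (mem_univ _)),
    card_eq_sum_card_fiberwise (f := colOf T) (t := univ.image (colOf T))
      (fun x _ => mem_image_of_mem _ (mem_univ _))]
  refine sum_le_sum fun c _ => ?_
  simp only [filter_filter]
  by_cases hall : ∀ x, colOf T x = c → (T x : ℕ) < j
  · exact card_le_card fun x hx => by
      simp only [mem_filter, mem_univ, true_and] at hx ⊢; exact ⟨hall x hx.2, hx.2⟩
  · push Not at hall
    obtain ⟨y, hy, hyj⟩ := hall
    have hmem : ∀ i : Fin n, (i : ℕ) < j → ∃ x, T x = i ∧ colOf T x = c := by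
      intro i hi
      rw [exists_cell hT]
      have h1 := (exists_cell hT (T y) c).mp ⟨y, rfl, hy⟩
      have h2 := (isBeta_beta p).anti
      refine lt_of_lt_of_le h1 ?_
      have key : ∀ (d : ℕ) (i i' : Fin n), (i : ℕ) + d = i' → row p i' ≤ row p i := by
        intro d
        induction d with
        | zero => intro i i' h; rw [show i = i' from Fin.ext (by omega)]
        | succ d ih =>
          intro i i' h
          let i1 : Fin n := ⟨(i : ℕ) + d, by omega⟩
          have h3 := h2 i1 i' (by simp [i1, Fin.lt_def]; omega)
          have h4 := ih i i1 rfl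
          simp only [beta, delta, i1] at h3
          push_cast at h3
          simp only [i1] at h4
          omega
      exact key ((T y : ℕ) - i) i (T y) (by omega)
    choose f hf1 hf2 using hmem
    refine (card_le_card_of_injOn (fun x => (g x : ℕ)) (t := range (min j n)) ?_ ?_).trans ?_
    · intro x hx
      simp only [coe_filter, mem_univ, true_and, Set.mem_ofPred_eq] at hx
      simp [hx.1]
    · intro x hx x' hx' h
      simp only [coe_filter, mem_univ, true_and, Set.mem_ofPred_eq] at hx hx'
      exact hg x x' (hx.2.trans hx'.2.symm) (Fin.ext h)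
    · refine card_le_card_of_injOn
        (fun i => if h : i < min j n then f ⟨i, by omega⟩ (by simp; omega) else y) ?_ ?_
      · intro i hi
        simp only [coe_range, Set.mem_Iio] at hi
        simp [(lt_min_iff.mp hi).1, (lt_min_iff.mp hi).2, hf1, hf2]
      · intro i hi i' hi' h
        simp only [coe_range, Set.mem_Iio] at hi hi'
        simp only [dif_pos hi, dif_pos hi'] at h
        simpa [hf1] using congrArg T h

/-- `colSym` kills permutation modules of types not dominated by the shape. -/
lemma colSym_colouringRep {p : n.Partition} {T : Fin n → Fin n} (hT : IsTableau p T)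
    (c : Fin n → ℕ) {j : ℕ}
    (hj : pre j (fun i : Fin n => (row p i : ℤ)) < pre j (fun i => (c i : ℤ))) :
    asAlgebraHom (colouringRep (α := Fin n) c) (colSym T) = 0 := by
  classical
  refine LinearMap.ext fun F => funext fun g => ?_
  obtain ⟨x, y, hcol, hgxy, hne⟩ :
      ∃ x y, colOf T x = colOf T y ∧ g.1 x = g.1 y ∧ x ≠ y := by
    by_contra hno
    push Not at hno
    have := pre_le_of_injOn hT g.1 hno j
    rw [g.2] at this
    simp only [hT _] at this
    omega
  simp only [colSym, map_sum, asAlgebraHom_single, LinearMap.sum_apply, Finset.sum_apply,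
    LinearMap.smul_apply, Pi.smul_apply, LinearMap.zero_apply, Pi.zero_apply, smul_eq_mul]
  refine Finset.sum_involution (fun π _ => Equiv.swap x y * π) ?_ ?_ ?_ ?_
  · intro π _
    have harg : g.1 ∘ ⇑(Equiv.swap x y * π) = g.1 ∘ π := by
      funext z
      simp only [Function.comp_apply, Perm.coe_mul, Equiv.swap_apply_def]
      split_ifs with h1 h2
      · rw [h1, hgxy]
      · rw [h2, hgxy]
      · rfl
    have : (colouringRep (α := Fin n) c (Equiv.swap x y * π) F) g =
        (colouringRep (α := Fin n) c π F) g := congrArg F (Subtype.ext harg)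
    rw [this]
    simp [Perm.sign_swap hne]
  · intro π _ _ heq
    exact hne (Equiv.swap_eq_one_iff.mp (mul_right_cancel (heq.trans (one_mul π).symm)))
  · intro π hπ
    simp only [mem_filter, mem_univ, true_and] at hπ ⊢
    funext z
    have h0 := congrFun hπ z
    simp only [Function.comp_apply] at h0
    simp only [Function.comp_apply, Perm.coe_mul, Equiv.swap_apply_def]
    split_ifs with h1 h2
    · rw [← hcol, ← h1, h0]
    · rw [hcol, ← h2, h0]
    · exact h0
  · intro π _; simp [← mul_assoc]

lemma sum_chi_mul_colouring (a : Fin n → ℤ) (c : Fin n → ℕ) (hc : ∑ i, c i = n) :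
    ∑ π : Perm (Fin n), chiC a π * (colouringRep (α := Fin n) c).character π⁻¹ =
      (n.factorial : ℂ) * kost n n a c := by
  classical
  have h : ∀ π : Perm (Fin n), chiC a π * (colouringRep (α := Fin n) c).character π⁻¹ =
      ∑ g ∈ ({g | cnt g = c} : Finset (Fin n → Fin n)),
        if g ∘ (π⁻¹ : Perm (Fin n)) = g then chiC a π⁻¹ else 0 := by
    intro π
    rw [colouringRep_character, sum_ite, sum_const_zero, add_zero, sum_const, nsmul_eq_mul,
      mul_comm, filter_filter]
    simp [chiC, chi_inv]
  rw [sum_congr rfl fun π _ => h π, sum_comm]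
  have h2 : ∀ g ∈ ({g | cnt g = c} : Finset (Fin n → Fin n)),
      (∑ π : Perm (Fin n), if g ∘ (π⁻¹ : Perm (Fin n)) = g then chiC a π⁻¹ else 0) =
        ((∏ i, ((c i).factorial : ℤ)) * kost n n a c : ℤ) := by
    intro g hg
    refine (Equiv.sum_comp (Equiv.inv (Perm (Fin n)))
      fun π : Perm (Fin n) => if g ∘ π = g then chiC a π else 0).trans ?_
    rw [← sum_filter]
    have := sum_stab_chi n a g
    rw [stab, (mem_filter.mp hg).2] at this
    simp only [chiC]
    exact_mod_cast this
  rw [sum_congr rfl h2, sum_const, nsmul_eq_mul]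
  have := card_cnt_mul_prod (α := Fin n) c (by simpa using hc)
  rw [Fintype.card_fin] at this
  rw [← this]
  push_cast
  ring

/-- The Specht module of shape `p` has character `chiP p`. -/
theorem specht_character {p : n.Partition} {T : Fin n → Fin n} (hT : IsTableau p T) :
    (specht T).toRepresentation.character = chiP p := by
  classical
  set G := Perm (Fin n)
  have hne : (Nat.card G : ℂ) ≠ 0 := by simp [Nat.card_eq_fintype_card]
  have : Invertible (Nat.card G : ℂ) := invertibleOfNonzero hne
  set χ := (specht T).toRepresentation.character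
  have hle : ∀ q, ∃ m : ℕ, m ≤ (if q = p then 1 else 0) ∧
      ∑ π, chiP q π * χ π⁻¹ = (m : ℂ) * Fintype.card G := by
    intro q
    obtain ⟨d, σ, hσ, hσe⟩ := chiP_mem_irrSet q
    refine ⟨Module.finrank ℂ (IntertwiningMap (specht T).toRepresentation σ), ?_, ?_⟩
    swap
    · have h := card_inv_mul_sum_char_mul_char_eq_finrank (specht T).toRepresentation σ
      rw [hσe] at h
      rw [← h, ← Nat.card_eq_fintype_card, mul_comm _ (Nat.card G : ℂ), ← mul_assoc,
        mul_inv_cancel₀ hne, one_mul]
    have hq : ∑ i : Fin n, row q i = n := sum_row q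
    by_cases hdom : ∃ j, pre j (fun i : Fin n => (row p i : ℤ)) < pre j (fun i : Fin n => (row q i : ℤ))
    · obtain ⟨j, hj⟩ := hdom
      set τ := colouringRep (α := Fin n) fun i : Fin n => row q i
      have hdiag : kost n n (beta q) (fun i : Fin n => row q i) = 1 :=
        kost_diag n le_rfl _ _ (isBeta_beta q) (fun i hi => absurd i.isLt (not_lt.mpr hi))
          (fun i => by simp [beta])
      have hrank : Module.finrank ℂ (IntertwiningMap τ σ) = 1 := by
        have h := card_inv_mul_sum_char_mul_char_eq_finrank τ σ
        rw [hσe] at h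
        unfold chiP at h
        rw [sum_chi_mul_colouring (beta q) _ hq, hdiag, Nat.card_eq_fintype_card,
          Fintype.card_perm, Fintype.card_fin, Int.cast_one, mul_one,
          inv_mul_cancel₀ (by exact_mod_cast Nat.factorial_ne_zero n)] at h
        exact_mod_cast h.symm
      have : Nontrivial (IntertwiningMap τ σ) :=
        Module.nontrivial_of_finrank_pos (R := ℂ) (by omega)
      obtain ⟨f, hf⟩ := exists_ne (0 : IntertwiningMap τ σ)
      have hsurj : Function.Surjective f :=
        (Representation.IsIrreducible.surjective_or_eq_zero f).resolve_right hf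
      have hb : asAlgebraHom σ (colSym T) = 0 := by
        refine LinearMap.ext fun w => ?_
        obtain ⟨v, rfl⟩ := hsurj w
        have hcomm : ∀ (x : GA n) (v : _),
            f (asAlgebraHom τ x v) = asAlgebraHom σ x (f v) := by
          intro x v
          induction x using MonoidAlgebra.induction_on with
          | of g =>
            rw [MonoidAlgebra.of_apply, asAlgebraHom_single_one, asAlgebraHom_single_one]
            exact LinearMap.congr_fun (f.isIntertwining' g) v
          | add x y hx hy => simp [map_add, hx, hy]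
          | smul c x hx => simp [map_smul, hx]
        rw [LinearMap.zero_apply, ← hcomm, colSym_colouringRep hT _ hj]
        simp
      have : Subsingleton (IntertwiningMap (specht T).toRepresentation σ) :=
        ⟨fun x y => (hom_eq_zero σ T hb x).trans (hom_eq_zero σ T hb y).symm⟩
      rw [Module.finrank_zero_of_subsingleton]
      exact Nat.zero_le _
    push Not at hdom
    refine (finrank_hom_le σ T).trans ?_
    have hcntT : cnt T = fun i : Fin n => row p i := funext hT
    have hinv : (Module.finrank ℂ (invariants (σ.comp (rowGroup T).subtype)) : ℂ) =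
        kost n n (beta q) (fun i : Fin n => row p i) := by
      have hneR : (Nat.card (rowGroup T) : ℂ) ≠ 0 := by simp [Nat.card_eq_fintype_card]
      have : Invertible (Nat.card (rowGroup T) : ℂ) := invertibleOfNonzero hneR
      rw [← card_inv_mul_sum_char_eq_finrank (σ.comp (rowGroup T).subtype)]
      have hsum : ∑ r : rowGroup T,
          Representation.character (σ.comp (rowGroup T).subtype) r =
          ∑ π ∈ stab T, chiP q π := by
        rw [← hσe]
        exact (Finset.sum_bij (fun r _ => r.1) (fun r _ => mem_stab.mpr r.2)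
          (fun a _ b _ h => Subtype.ext h) (fun b hb => ⟨⟨b, mem_stab.mp hb⟩, mem_univ _, rfl⟩)
          fun r _ => rfl)
      have hR : Nat.card (rowGroup T) = #(stab T) := by
        rw [← Nat.card_eq_finsetCard]
        exact Nat.card_congr (Equiv.subtypeEquivRight fun x => mem_stab.symm)
      have h1 := sum_stab_chi n (beta q) T
      rw [hsum]
      simp only [chiP, chiC]
      rw [← Int.cast_sum, h1, hR, card_stab, hcntT]
      push_cast
      rw [← mul_assoc, inv_mul_cancel₀, one_mul]
      exact prod_ne_zero_iff.mpr fun i _ => by exact_mod_cast Nat.factorial_ne_zero _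
    by_cases hk : kost n n (beta q) (fun i : Fin n => row p i) = 0
    · rw [hk, Int.cast_zero, Nat.cast_eq_zero] at hinv
      omega
    have h := (kost_ne_zero n _ _ (isBeta_beta q) (sum_row p) hk).2
    have hpq : q = p := by
      apply beta_injective
      funext i
      have step : ∀ f : Fin n → ℤ, pre ((i : ℕ) + 1) f - pre i f = f i := by
        intro f
        simp only [pre, ← sum_sub_distrib]
        rw [sum_eq_single i]
        · simp
        · intro x _ hx
          have : (x : ℕ) ≠ i := fun h => hx (Fin.ext h)
          split_ifs <;> omega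
        · simp
      have heq : ∀ j, pre j (fun i : Fin n => (row q i : ℤ)) =
          pre j (fun i : Fin n => (row p i : ℤ)) := fun j =>
        le_antisymm (hdom j) (le_trans (h j) (le_of_eq (congrArg _ (funext fun i => by simp [beta]))))
      have h1 := step fun i => (row q i : ℤ)
      have h2 := step fun i => (row p i : ℤ)
      rw [heq, heq] at h1
      simp only [beta]
      omega
    subst hpq
    rw [if_pos rfl]
    have hdiag : kost n n (beta q) (fun i : Fin n => row q i) = 1 :=
      kost_diag n le_rfl _ _ (isBeta_beta q) (fun i hi => absurd i.isLt (not_lt.mpr hi))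
        (fun i => by simp [beta])
    rw [hdiag, Int.cast_one, Nat.cast_eq_one] at hinv
    exact hinv.le
  -- expand `χ` in irreducible characters
  obtain ⟨c, hc⟩ := (Finsupp.mem_span_iff_linearCombination ℤ _ _).mp
    (character_mem_span _ (specht T).toRepresentation rfl)
  have hexp : ∀ g, χ g = ∑ s ∈ c.support, (c s : ℂ) * (s : G → ℂ) g := by
    intro g
    show (specht T).toRepresentation.character g = _
    rw [← hc]
    simp [Finsupp.linearCombination_apply, Finsupp.sum, Finset.sum_apply]
  let t : IrrSet G := ⟨chiP p, chiP_mem_irrSet p⟩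
  have hcoef : ∀ s : IrrSet G, ∃ m : ℕ, (c s : ℂ) = m ∧ m ≤ if s = t then 1 else 0 := by
    intro s
    obtain ⟨q, hq⟩ := exists_chiP_eq s.2
    obtain ⟨m, hm, hs⟩ := hle q
    refine ⟨m, ?_, ?_⟩
    · rw [hq] at hs
      simp only [hexp, mul_sum] at hs
      rw [sum_comm] at hs
      simp only [mul_left_comm ((s : G → ℂ) _), ← mul_sum] at hs
      rw [sum_congr rfl fun u _ => by rw [irr_inner s.2 u.2]] at hs
      simp only [Subtype.coe_inj, mul_ite, mul_zero, sum_ite_eq] at hs
      refine mul_right_cancel₀ (b := (Fintype.card G : ℂ)) (by simp) ?_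
      rw [← hs]
      split_ifs with hmem
      · rfl
      · rw [Finsupp.notMem_support_iff.mp hmem]; simp
    · refine hm.trans ?_
      split_ifs with h1 h2
      · exact le_rfl
      · exact absurd (Subtype.ext (by rw [← hq, h1])) h2
      all_goals exact Nat.zero_le _
  have hsub : c.support ⊆ {t} := by
    intro s hs
    rw [mem_singleton]
    by_contra h
    obtain ⟨m, hm, hm'⟩ := hcoef s
    rw [if_neg h, Nat.le_zero] at hm'
    rw [hm', Nat.cast_zero, Int.cast_eq_zero] at hm
    exact Finsupp.mem_support_iff.mp hs hm
  have hχ : ∀ g, χ g = (c t : ℂ) * chiP p g := by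
    intro g
    rw [hexp, sum_subset hsub (fun x _ hx => by rw [Finsupp.notMem_support_iff.mp hx]; simp),
      sum_singleton]
  obtain ⟨m, hm, hm'⟩ := hcoef t
  rw [if_pos rfl] at hm'
  rcases Nat.le_one_iff_eq_zero_or_eq_one.mp hm' with rfl | rfl
  · exfalso
    have h1 := hχ 1
    rw [hm, Nat.cast_zero, zero_mul, show χ 1 = _ from char_one _, Nat.cast_eq_zero] at h1
    have : Subsingleton (specht T).toSubmodule := Module.finrank_zero_iff.mp h1
    exact youngSym_ne_zero T (congrArg Subtype.val
      (Subsingleton.elim (⟨_, youngSym_mem T⟩ : (specht T).toSubmodule) 0))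
  · funext g
    rw [hχ g, hm]; simp

/-- A fixed tableau of shape `p`. -/
noncomputable def tableau (p : n.Partition) : Fin n → Fin n := (exists_isTableau p).choose

/-- The Specht module `S^p`. -/
noncomputable def spechtRep (p : n.Partition) :
    Representation ℂ (Perm (Fin n)) (specht (tableau p)).toSubmodule :=
  (specht (tableau p)).toRepresentation

theorem spechtRep_character (p : n.Partition) : (spechtRep p).character = chiP p :=
  specht_character (exists_isTableau p).choose_spec

/-- The Kronecker coefficient `g(λ, μ, ν) = dim Hom_{S_n}(S^ν, S^λ ⊗ S^μ)`. -/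
noncomputable def kronecker (l m v : n.Partition) : ℕ :=
  Module.finrank ℂ (IntertwiningMap (spechtRep v) (tprod (spechtRep l) (spechtRep m)))

/-- The character formula for Kronecker coefficients. -/
theorem kronecker_eq (l m v : n.Partition) :
    ((kronecker l m v : ℕ) : ℂ) * n.factorial =
      ∑ π : Perm (Fin n), ((chi (beta l) π * chi (beta m) π * chi (beta v) π : ℤ) : ℂ) := by
  have hne : (Nat.card (Perm (Fin n)) : ℂ) ≠ 0 := by simp [Nat.card_eq_fintype_card]
  have : Invertible (Nat.card (Perm (Fin n)) : ℂ) := invertibleOfNonzero hne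
  have h := card_inv_mul_sum_char_mul_char_eq_finrank
    (W := TensorProduct ℂ (specht (tableau l)).toSubmodule (specht (tableau m)).toSubmodule)
    (spechtRep v) (tprod (spechtRep l) (spechtRep m))
  rw [kronecker, ← h, mul_comm ((Nat.card (Perm (Fin n)) : ℂ))⁻¹, mul_assoc,
    Nat.card_eq_fintype_card, Fintype.card_perm, Fintype.card_fin,
    inv_mul_cancel₀ (by exact_mod_cast Nat.factorial_ne_zero n), mul_one]
  refine sum_congr rfl fun π _ => ?_
  rw [char_tensor, Pi.mul_apply, spechtRep_character, spechtRep_character, spechtRep_character]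
  simp [chiP, chiC, chi_inv]

end Vale.Agent.P197.SymChar
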