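import Vale.Agent.P197.SymChar.Dominance

/-!
# Conjugation of partitions twists the character by the sign

`chi (beta (conjP p)) π = sign π * chi (beta p) π`.
-/

open Finset Equiv

namespace Vale.Agent.P197.SymChar

variable {n k N : ℕ} {α : Type} [Fintype α] [DecidableEq α]

/-- The signed sum over a double stabiliser counts only jointly injective pairs. -/
lemma sum_sign_stab (g : α → Fin k) (f : α → Fin N) :
    (∑ π ∈ stab g, if f ∘ π = f then (Perm.sign π : ℤ) else 0) =
      if ∀ x y, g x = g y → f x = f y → x = y then 1 else 0 := by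
  split_ifs with h
  · rw [sum_eq_single 1]
    · simp
    · intro π hπ hne
      rw [if_neg]
      intro hf
      exact hne (Equiv.ext fun x => h _ _ (congrFun (mem_stab.mp hπ) x) (congrFun hf x))
    · intro h1; exact absurd (by simp) h1
  · push Not at h
    obtain ⟨x, y, hg, hf, hne⟩ := h
    refine Finset.sum_involution (fun π _ => Equiv.swap x y * π) ?_ ?_ ?_ ?_
    · intro π _
      have e : f ∘ ⇑(Equiv.swap x y * π) = f ∘ π := by
        funext z
        simp only [Function.comp_apply, Perm.coe_mul, Equiv.swap_apply_def]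
        split_ifs with h1 h2
        · rw [h1, hf]
        · rw [h2, hf]
        · rfl
      rw [e]
      split_ifs <;> simp [Perm.sign_swap hne]
    · intro π _ _ heq
      exact hne (Equiv.swap_eq_one_iff.mp (mul_right_cancel (heq.trans (one_mul π).symm)))
    · intro π hπ
      rw [mem_stab] at hπ ⊢
      refine Eq.trans ?_ hπ
      funext z
      simp only [Function.comp_apply, Perm.coe_mul, Equiv.swap_apply_def]
      split_ifs with h1 h2
      · rw [h1, hg]
      · rw [h2, hg]
      · rfl
    · intro π _; simp [← mul_assoc]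

/-- The alternating sum of `chi a` over a Young subgroup. -/
lemma sum_sign_chi (a : Fin N → ℤ) (g : α → Fin k) :
    ∑ π ∈ stab g, (Perm.sign π : ℤ) * chi a π =
      ∑ f : α → Fin N, if ∀ x y, g x = g y → f x = f y → x = y then eps a (cnt f) else 0 := by
  simp only [chi, fixedCol, sum_filter, mul_sum]
  rw [sum_comm]
  refine sum_congr rfl fun f _ => ?_
  rw [← boole_mul, ← sum_sign_stab g f, sum_mul]
  refine sum_congr rfl fun π _ => ?_
  split_ifs <;> simp

/-- The shifted entries of a nonzero signed indicator. -/
lemma exists_of_eps_ne_zero {a : Fin N → ℤ} {c : Fin N → ℕ} (h : eps a c ≠ 0) :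
    ∃ w : Perm (Fin N), ∀ j, a (w j) = c j + delta N j := by
  obtain ⟨w, -, hw⟩ := exists_ne_zero_of_sum_ne_zero h
  by_contra hno
  push Not at hno
  obtain ⟨j, hj⟩ := hno w
  exact hw (by rw [if_neg fun hh => hj (hh j), mul_zero])

lemma pre_beta (p : n.Partition) (j : ℕ) :
    pre j (fun i => beta p i - delta n i) = ((∑ i ∈ range j, row p i : ℕ) : ℤ) := by
  rw [← pre_row]
  exact sum_congr rfl fun i _ => by simp [beta]

/-- A nonzero alternating sum over the Young subgroup of shape `q` forces `q ≤ p'`. -/
lemma dominates_conjP_of_sum_sign_ne_zero (p : n.Partition) (g : Fin n → Fin n)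
    (h : ∑ π ∈ stab g, (Perm.sign π : ℤ) * chi (beta p) π ≠ 0) (j : ℕ) :
    pre j (fun i => (cnt g i : ℤ)) ≤ ((∑ i ∈ range j, row (conjP p) i : ℕ) : ℤ) := by
  rw [sum_sign_chi] at h
  obtain ⟨f, -, hf⟩ := exists_ne_zero_of_sum_ne_zero h
  simp only [ne_eq, ite_eq_right_iff, Classical.not_imp] at hf
  obtain ⟨hinj, hf⟩ := hf
  obtain ⟨w, hw⟩ := exists_of_eps_ne_zero hf
  rw [pre_eq_card, Nat.cast_le, sum_range_row_conjP]
  have h1 : #{x | (g x : ℕ) < j} ≤ ∑ i, min j (cnt f i) := by
    rw [card_eq_sum_card_fiberwise (f := f) (t := univ) (fun x _ => mem_univ _)]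
    refine sum_le_sum fun i _ => le_min ?_ ?_
    · refine (card_le_card_of_injOn (fun x => (g x : ℕ)) (t := range j) ?_ ?_).trans_eq
        (card_range j)
      · intro x hx
        simp only [mem_coe, mem_filter, mem_univ, true_and] at hx
        simpa using hx.1
      · intro x hx y hy hxy
        simp only [mem_coe, mem_filter, mem_univ, true_and] at hx hy
        exact hinj x y (Fin.ext hxy) (hx.2.trans hy.2.symm)
    · exact card_le_card fun x hx => by
        simp only [mem_filter, mem_univ, true_and] at hx ⊢; exact hx.2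
  refine h1.trans ?_
  set m := colLen p j with hm
  obtain ⟨v, hv, -⟩ := pre_perm_le hw m
  rw [pre_beta] at hv
  have hmn : m ≤ n := (card_le_card (filter_subset _ _)).trans_eq (card_range n)
  have hfil : (range n).filter (fun i => i < m) = range m := by ext; simp; omega
  have e1 : ∑ i ∈ range n, min j (row p i) + ∑ i ∈ range m, row p i = n + j * m := by
    have h1 : ∀ i ∈ range n, min j (row p i) + (if i < m then row p i else 0)
        = row p i + if i < m then j else 0 := by
      intro i _
      have := lt_colLen_iff p i j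
      split_ifs <;> omega
    have h2 := sum_congr rfl h1
    rw [sum_add_distrib, sum_add_distrib, ← sum_filter, ← sum_filter, hfil, sum_range_row,
      sum_const, card_range, smul_eq_mul, mul_comm m j] at h2
    exact h2
  have e2 : ∑ i, min j (cnt f i) + ∑ i : Fin n, (if (i : ℕ) < m then cnt f (v i) else 0)
      ≤ n + j * m := by
    rw [← Equiv.sum_comp v fun i => min j (cnt f i)]
    have h1 : ∀ i ∈ (univ : Finset (Fin n)),
        min j (cnt f (v i)) + (if (i : ℕ) < m then cnt f (v i) else 0) ≤
          cnt f (v i) + if (i : ℕ) < m then j else 0 := fun i _ => by split_ifs <;> omega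
    have h2 := sum_le_sum h1
    have h3 : ∑ i : Fin n, (if (i : ℕ) < m then j else 0) = j * m := by
      rw [Fin.sum_univ_eq_sum_range (fun i => if i < m then j else 0) n, ← sum_filter, hfil,
        sum_const, card_range, smul_eq_mul, mul_comm m j]
    rw [sum_add_distrib, sum_add_distrib, Equiv.sum_comp v (cnt f), sum_cnt, Fintype.card_fin,
      h3] at h2
    exact h2
  have e3 : ∑ i ∈ range m, row p i ≤ ∑ i : Fin n, (if (i : ℕ) < m then cnt f (v i) else 0) := by
    zify
    push_cast at hv
    simp only [pre, Function.comp_apply] at hv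
    refine le_of_le_of_eq hv (sum_congr rfl fun i _ => ?_)
    simp only [Nat.cast_lt]
  omega

lemma colOf_lt (T : Fin n → Fin n) (x : Fin n) : colOf T x < n := by
  refine lt_of_lt_of_eq (card_lt_card ?_) (card_fin n)
  rw [ssubset_iff_of_subset (subset_univ _)]
  exact ⟨x, mem_univ _, by simp⟩

/-- Columns as a colouring. -/
def colFin (T : Fin n → Fin n) (x : Fin n) : Fin n := ⟨colOf T x, colOf_lt T x⟩

lemma cnt_colFin {p : n.Partition} {T : Fin n → Fin n} (hT : IsTableau p T) (c : Fin n) :
    cnt (colFin T) c = row (conjP p) c := by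
  classical
  rw [row_conjP, colLen, cnt]
  refine card_bij (fun x _ => (T x : ℕ)) ?_ ?_ ?_
  · intro x hx
    simp only [mem_filter, mem_univ, true_and, colFin, Fin.ext_iff] at hx
    simp only [mem_filter, mem_range, Fin.is_lt, true_and]
    exact hx ▸ (exists_cell hT (T x) (colOf T x)).mp ⟨x, rfl, rfl⟩
  · intro x hx y hy hxy
    simp only [mem_filter, mem_univ, true_and, colFin, Fin.ext_iff] at hx hy
    exact row_col_injective T (Fin.ext hxy) (hx.trans hy.symm)
  · intro i hi
    simp only [mem_filter, mem_range] at hi
    obtain ⟨x, hx, hc⟩ := (exists_cell hT ⟨i, hi.1⟩ c).mpr hi.2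
    exact ⟨x, by simp [colFin, Fin.ext_iff, hc], by rw [hx]⟩

/-- The alternating sum over the column group is positive. -/
lemma sum_sign_colFin_pos {p : n.Partition} {T : Fin n → Fin n} (hT : IsTableau p T) :
    0 < ∑ π ∈ stab (colFin T), (Perm.sign π : ℤ) * chi (beta p) π := by
  classical
  rw [sum_sign_chi]
  have huniq : ∀ f : Fin n → Fin n,
      (∀ x y, colFin T x = colFin T y → f x = f y → x = y) →
      ∀ w : Perm (Fin n), (∀ j, beta p (w j) = cnt f j + delta n j) → w = 1 := by
    intro f hinj w hw
    have hd : ∀ j, pre j (fun i => delta n (w.symm i)) = pre j (delta n) := by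
      intro j
      obtain ⟨v, hv, hveq⟩ := pre_perm_le hw j
      refine hveq (le_antisymm hv ?_)
      have hcv : (cnt f ∘ v) = cnt (v.symm ∘ f) := by
        funext i
        have := cnt_perm_comp f v.symm (v i)
        simpa using this.symm
      have h1 := pre_le_of_injOn hT (v.symm ∘ f) (fun x y hxy h => hinj x y (Fin.ext hxy)
        (v.symm.injective h)) j
      rw [← hcv] at h1
      refine h1.trans (le_of_eq (sum_congr rfl fun i _ => ?_))
      simp [beta, hT i]
    refine Equiv.ext fun i => ?_
    have step : ∀ F : Fin n → ℤ, pre ((w i : ℕ) + 1) F - pre (w i : ℕ) F = F (w i) := by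
      intro F
      simp only [pre, ← sum_sub_distrib]
      rw [sum_eq_single (w i)]
      · simp
      · intro x _ hx
        have : (x : ℕ) ≠ (w i : ℕ) := fun h => hx (Fin.ext h)
        split_ifs <;> omega
      · simp
    have h1 := step fun i => delta n (w.symm i)
    have h2 := step (delta n)
    rw [hd, hd] at h1
    simp only [Equiv.symm_apply_apply, delta] at h1 h2
    simp only [Perm.one_apply]
    exact Fin.ext (by omega)
  refine sum_pos' (fun f _ => ?_) ⟨T, mem_univ _, ?_⟩
  · split_ifs with hinj
    · refine sum_nonneg fun w _ => ?_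
      split_ifs with hw
      · rw [huniq f hinj w hw]; simp
      · simp
    · exact le_rfl
  · have hinj : ∀ x y, colFin T x = colFin T y → T x = T y → x = y := fun x y h1 h2 =>
      row_col_injective T h2 (congrArg Fin.val h1)
    rw [if_pos hinj, eps, sum_eq_single 1]
    · rw [if_pos]
      · simp
      · intro j; simp [beta, hT j]
    · intro w _ hw
      rw [if_neg fun hh => hw (huniq T hinj w hh), mul_zero]
    · simp

/-- Twisting a representation by the sign. -/
noncomputable def signTwist {d : ℕ} (ρ : Representation ℂ (Perm α) (Fin d → ℂ)) :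
    Representation ℂ (Perm α) (Fin d → ℂ) where
  toFun π := ((Perm.sign π : ℤ) : ℂ) • ρ π
  map_one' := by simp
  map_mul' a b := by
    simp only [map_mul, Units.val_mul, Int.cast_mul]
    rw [smul_mul_smul_comm]

/-- The twist of `χ^p` by the sign is again some `χ^q`. -/
lemma exists_chi_sign (p : n.Partition) :
    ∃ q : n.Partition, ∀ π : Perm (Fin n), chi (beta q) π = (Perm.sign π : ℤ) * chi (beta p) π := by
  have ha : IsBeta (Fintype.card (Fin n)) (beta p) := by simpa using isBeta_beta p
  obtain ⟨d, ρ, _, hρ⟩ := chiP_mem_irrSet p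
  set χ : Perm (Fin n) → ℂ := fun π => ((Perm.sign π : ℤ) : ℂ) * chiP p π with hχ
  have hchar : (signTwist ρ).character = χ := by
    funext π
    show LinearMap.trace ℂ _ (((Perm.sign π : ℤ) : ℂ) • ρ π) = _
    rw [map_smul, hχ, ← hρ]
    rfl
  have hmem : χ ∈ IrrSet (Perm (Fin n)) := by
    refine mem_irrSet_of_norm_one ?_ ?_ (d := (chi (beta p) (1 : Perm (Fin n))).toNat) ?_
    · rw [← hchar]
      exact character_mem_span _ _ rfl
    · have h := sum_chi_mul_chi ha ha
      rw [if_pos rfl] at h
      have e : ∀ π : Perm (Fin n),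
          χ π * χ π⁻¹ = ((chi (beta p) π * chi (beta p) π : ℤ) : ℂ) := by
        intro π
        simp only [hχ, chiP, chiC, chi_inv, Perm.sign_inv]
        rcases Int.units_eq_one_or (Perm.sign π) with hs | hs <;> rw [hs] <;> simp
      rw [sum_congr rfl fun π _ => e π, ← Int.cast_sum, h]
      simp [Fintype.card_perm]
    · have := chi_one_pos _ (beta p) ha rfl (α := Fin n)
      simp only [hχ, chiP, chiC, map_one, Units.val_one, Int.cast_one, one_mul]
      exact_mod_cast (Int.toNat_of_nonneg this.le).symm
  obtain ⟨q, hq⟩ := exists_chiP_eq hmem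
  refine ⟨q, fun π => ?_⟩
  have := congrFun hq π
  simp only [chiP, chiC, hχ] at this
  exact_mod_cast this

/-- The shapes of two sign-twisted characters: one dominates the conjugate of the other. -/
lemma dominates_of_chi_sign {p q : n.Partition}
    (h : ∀ π : Perm (Fin n), chi (beta q) π = (Perm.sign π : ℤ) * chi (beta p) π) :
    Dominates q (conjP p) := by
  set g := colFin (tableau p) with hg
  have hT : IsTableau p (tableau p) := (exists_isTableau p).choose_spec
  have hpos : 0 < ∑ π ∈ stab g, chi (beta q) π := by
    simp only [h]; exact sum_sign_colFin_pos hT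
  rw [sum_stab_chi] at hpos
  have hk : kost n n (beta q) (cnt g) ≠ 0 := fun h0 => by rw [h0, mul_zero] at hpos; omega
  have hd := (kost_ne_zero n (beta q) (cnt g) (isBeta_beta q)
    ((sum_cnt g).trans (Fintype.card_fin n)) hk).2
  intro j
  have h1 := hd j
  rw [pre_beta] at h1
  have h2 : pre j (fun i => (cnt g i : ℤ)) = ((∑ c ∈ range j, row (conjP p) c : ℕ) : ℤ) := by
    rw [← pre_row]
    exact sum_congr rfl fun i _ => by simp only [hg, cnt_colFin hT]
  rw [h2, Nat.cast_le] at h1
  exact h1

/-- **Conjugation twists the character by the sign.** -/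
theorem chi_conjP (p : n.Partition) (π : Perm (Fin n)) :
    chi (beta (conjP p)) π = (Perm.sign π : ℤ) * chi (beta p) π := by
  obtain ⟨q, hq⟩ := exists_chi_sign p
  suffices q = conjP p by subst this; exact hq π
  have hq' : ∀ π : Perm (Fin n), chi (beta p) π = (Perm.sign π : ℤ) * chi (beta q) π := fun π => by
    rw [hq, ← mul_assoc, ← Units.val_mul, Int.units_mul_self, Units.val_one, one_mul]
  have h2 : Dominates (conjP q) p := by
    have hT : IsTableau p (tableau p) := (exists_isTableau p).choose_spec
    have hk : kost n n (beta p) (fun i : Fin n => row p i) = 1 :=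
      kost_diag n le_rfl _ _ (isBeta_beta p) (fun i hi => absurd i.isLt (not_lt.mpr hi))
        (fun i => by simp [beta])
    have hc : cnt (tableau p) = fun i : Fin n => row p i := funext hT
    have hne : ∑ π ∈ stab (tableau p), (Perm.sign π : ℤ) * chi (beta q) π ≠ 0 := by
      rw [sum_congr rfl fun π _ => (hq' π).symm, sum_stab_chi, hc, hk, mul_one]
      exact prod_ne_zero_iff.mpr fun i _ => by positivity
    intro j
    have h1 := dominates_conjP_of_sum_sign_ne_zero q (tableau p) hne j
    rw [hc, pre_row, Nat.cast_le] at h1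
    exact h1
  have e : conjP q = p := dominates_antisymm h2 (dominates_of_chi_sign hq')
  rw [← e, conjP_conjP]

/-- Twisting two factors by the sign does not change a triple sum. -/
theorem sum_chi_conjP (p q v : n.Partition) :
    ∑ π : Perm (Fin n), chi (beta (conjP p)) π * chi (beta q) π * chi (beta (conjP v)) π =
      ∑ π : Perm (Fin n), chi (beta p) π * chi (beta q) π * chi (beta v) π :=
  sum_congr rfl fun π _ => by
    rw [chi_conjP, chi_conjP]
    rcases Int.units_eq_one_or (Perm.sign π) with hs | hs <;> rw [hs] <;> simp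

/-- Conjugating two arguments preserves Kronecker coefficients. -/
theorem kronecker_conjP (p q v : n.Partition) :
    kronecker (conjP p) q (conjP v) = kronecker p q v := by
  have h1 := kronecker_eq (conjP p) q (conjP v)
  have h2 := kronecker_eq p q v
  rw [← Int.cast_sum, sum_chi_conjP, Int.cast_sum, ← h2] at h1
  exact Nat.cast_injective (R := ℂ)
    (mul_right_cancel₀ (by exact_mod_cast Nat.factorial_ne_zero n) h1)

end Vale.Agent.P197.SymChar
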