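import Mathlib

/-!
# Frobenius' formula for the characters of symmetric groups

For an exponent vector `a : Fin N → ℤ` and a permutation `π` of a finite type, `chi a π` is the
coefficient of `x ^ a` in `Δ(x) * ∏ (cycles c of π) (x₁^|c| + ... + x_N^|c|)`, written as a signed
count of colourings fixed by `π`.

* `chi_sumCongr` : splitting a permutation on a disjoint union;
* `chi_cycle` : the Murnaghan–Nakayama rule on exponent vectors (beta sets);
* `sum_chi_mul_chi` : row orthogonality.
-/

open Finset Equiv

namespace Vale.Agent.P197.SymChar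

set_option linter.unusedSectionVars false

variable {α β : Type*} [Fintype α] [DecidableEq α] [Fintype β] [DecidableEq β] {N k : ℕ}

/-- The staircase `δ_j = N - 1 - j`. -/
def delta (N : ℕ) (j : Fin N) : ℤ := (N : ℤ) - 1 - (j : ℕ)

/-- Fibre sizes of a colouring. -/
def cnt (f : α → Fin k) (j : Fin k) : ℕ := #{x | f x = j}

/-- Colourings invariant under a permutation. -/
def fixedCol (k : ℕ) (π : Perm α) : Finset (α → Fin k) := {f | f ∘ π = f}

/-- Permutations preserving a colouring. -/
def stab (g : α → Fin k) : Finset (Perm α) := {π | g ∘ π = g}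

/-- The signed indicator that `c + δ` is a rearrangement of `a`. -/
def eps (a : Fin N → ℤ) (c : Fin N → ℕ) : ℤ :=
  ∑ w : Perm (Fin N), (Perm.sign w : ℤ) * if ∀ j, a (w j) = c j + delta N j then 1 else 0

/-- Frobenius' character formula. -/
def chi (a : Fin N → ℤ) (π : Perm α) : ℤ := ∑ f ∈ fixedCol N π, eps a (cnt f)

@[simp] lemma mem_fixedCol {π : Perm α} {f : α → Fin k} : f ∈ fixedCol k π ↔ f ∘ π = f := by
  simp [fixedCol]

@[simp] lemma mem_stab {π : Perm α} {g : α → Fin k} : π ∈ stab g ↔ g ∘ π = g := by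
  simp [stab]

lemma sum_cnt (f : α → Fin k) : ∑ j, cnt f j = Fintype.card α := by
  simpa [cnt] using (card_eq_sum_card_fiberwise (f := f) (s := univ) (t := univ)
    (fun x _ => mem_univ _)).symm

lemma cnt_comp_equiv (f : α → Fin k) (e : β ≃ α) : cnt (f ∘ e) = cnt f := by
  funext j
  exact card_equiv e (by simp)

lemma cnt_perm_comp (f : α → Fin k) (w : Perm (Fin k)) (j : Fin k) :
    cnt (w ∘ f) (w j) = cnt f j := by
  simp [cnt]

lemma cnt_sumElim (f : α → Fin k) (g : β → Fin k) (j : Fin k) :
    cnt (Sum.elim f g) j = cnt f j + cnt g j := by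
  unfold cnt
  rw [card_filter, card_filter, card_filter, Fintype.sum_sum_type]
  rfl

lemma chi_permCongr (a : Fin N → ℤ) (e : α ≃ β) (π : Perm α) :
    chi a (e.permCongr π) = chi a π := by
  refine Finset.sum_bij' (fun f _ => f ∘ e) (fun f _ => f ∘ e.symm) ?_ ?_ ?_ ?_ ?_
  · intro f hf
    rw [mem_fixedCol] at hf ⊢
    funext x
    have := congrFun hf (e x)
    simpa [Equiv.permCongr_apply] using this
  · intro f hf
    rw [mem_fixedCol] at hf ⊢
    funext x
    have := congrFun hf (e.symm x)
    simpa [Equiv.permCongr_apply] using this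
  · intro f _; funext x; simp
  · intro f _; funext x; simp
  · intro f _; rw [cnt_comp_equiv]

lemma chi_conj (a : Fin N → ℤ) (σ π : Perm α) : chi a (σ * π * σ⁻¹) = chi a π := by
  have h : σ * π * σ⁻¹ = Equiv.permCongr σ π := by
    ext x; simp [Perm.inv_def]
  rw [h, chi_permCongr]

lemma eps_perm (a : Fin N → ℤ) (v : Perm (Fin N)) (c : Fin N → ℕ) :
    eps (a ∘ v) c = (Perm.sign v : ℤ) * eps a c := by
  unfold eps
  rw [mul_sum]
  refine Fintype.sum_equiv (Equiv.mulLeft v) _ _ fun w => ?_
  simp only [Equiv.coe_mulLeft, map_mul, Units.val_mul, Perm.mul_apply, Function.comp_apply]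
  rw [← mul_assoc (Perm.sign v : ℤ), ← mul_assoc, ← Units.val_mul, Int.units_mul_self,
    Units.val_one, one_mul]
  congr!

lemma chi_perm (a : Fin N → ℤ) (v : Perm (Fin N)) (π : Perm α) :
    chi (a ∘ v) π = (Perm.sign v : ℤ) * chi a π := by
  simp [chi, eps_perm, mul_sum]

lemma chi_eq_zero_of_not_injective (a : Fin N → ℤ) (ha : ¬ Function.Injective a) (π : Perm α) :
    chi a π = 0 := by
  obtain ⟨i, j, hij, hne⟩ := Function.not_injective_iff.mp ha
  have h : a ∘ Equiv.swap i j = a := by
    funext x
    rcases eq_or_ne x i with rfl | hi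
    · simp [hij]
    rcases eq_or_ne x j with rfl | hj
    · simp [hij]
    simp [Equiv.swap_apply_of_ne_of_ne hi hj]
  have := chi_perm a (Equiv.swap i j) π
  rw [h, Perm.sign_swap hne] at this
  simp at this
  omega

lemma eps_eq_zero_of_neg (a : Fin N → ℤ) {i : Fin N} (hi : a i < 0) (c : Fin N → ℕ) :
    eps a c = 0 := by
  refine sum_eq_zero fun w _ => ?_
  rw [if_neg, mul_zero]
  intro h
  have h1 := h (w.symm i)
  rw [Equiv.apply_symm_apply] at h1
  have := (w.symm i).isLt
  unfold delta at h1
  omega

lemma chi_eq_zero_of_neg (a : Fin N → ℤ) {i : Fin N} (hi : a i < 0) (π : Perm α) :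
    chi a π = 0 :=
  sum_eq_zero fun f _ => eps_eq_zero_of_neg a hi _

/-- Splitting: the key form of the Murnaghan–Nakayama rule. -/
theorem chi_sumCongr (a : Fin N → ℤ) (π : Perm α) (σ : Perm β) :
    chi a (Perm.sumCongr π σ) =
      ∑ g ∈ fixedCol N σ, chi (fun i => a i - cnt g i) π := by
  have h : chi a (Perm.sumCongr π σ) =
      ∑ f ∈ fixedCol N π, ∑ g ∈ fixedCol N σ, eps a (cnt (Sum.elim f g)) := by
    rw [← sum_product']
    refine Finset.sum_bij' (fun F _ => (F ∘ Sum.inl, F ∘ Sum.inr))
      (fun p _ => Sum.elim p.1 p.2) ?_ ?_ ?_ ?_ ?_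
    · intro F hF
      rw [mem_fixedCol] at hF
      simp only [mem_product, mem_fixedCol]
      constructor
      · funext x; simpa using congrFun hF (Sum.inl x)
      · funext x; simpa using congrFun hF (Sum.inr x)
    · intro p hp
      simp only [mem_product, mem_fixedCol] at hp
      rw [mem_fixedCol]
      funext x
      cases x with
      | inl x => simpa using congrFun hp.1 x
      | inr x => simpa using congrFun hp.2 x
    · intro F _; funext x; cases x <;> simp
    · intro p _; simp
    · intro F _
      congr 2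
      funext x; cases x <;> simp
  rw [h]
  unfold chi eps
  rw [sum_comm (s := fixedCol N σ)]
  refine sum_congr rfl fun f _ => ?_
  rw [sum_comm, sum_comm (s := fixedCol N σ)]
  refine sum_congr rfl fun w _ => ?_
  refine Finset.sum_bij' (fun g _ => w ∘ g) (fun g _ => w.symm ∘ g) ?_ ?_ ?_ ?_ ?_
  · intro g hg; rw [mem_fixedCol] at hg ⊢; rw [Function.comp_assoc, hg]
  · intro g hg; rw [mem_fixedCol] at hg ⊢; rw [Function.comp_assoc, hg]
  · intro g _; funext x; simp
  · intro g _; funext x; simp
  · intro g _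
    congr 1
    simp only [cnt_sumElim, Nat.cast_add, cnt_perm_comp]
    congr 1
    apply propext
    constructor <;> intro hh j <;> have := hh j <;> omega

/-- Murnaghan–Nakayama on exponent vectors: removing a permutation of `β` with a single orbit. -/
theorem chi_cycle [Nonempty β] (a : Fin N → ℤ) (π : Perm α) (σ : Perm β)
    (hσ : ∀ x y, σ.SameCycle x y) :
    chi a (Perm.sumCongr π σ) =
      ∑ i : Fin N, chi (fun l => a l - if l = i then (Fintype.card β : ℤ) else 0) π := by
  rw [chi_sumCongr]
  obtain ⟨x₀⟩ := ‹Nonempty β›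
  refine Finset.sum_bij' (fun g _ => g x₀) (fun i _ => fun _ => i) ?_ ?_ ?_ ?_ ?_
  · intro g _; exact mem_univ _
  · intro i _; rw [mem_fixedCol]; rfl
  · intro g hg
    rw [mem_fixedCol] at hg
    funext y
    obtain ⟨m, rfl⟩ := (hσ x₀ y).exists_nat_pow_eq
    induction m with
    | zero => simp
    | succ m ih => rw [pow_succ', Perm.mul_apply]; exact ih.trans (congrFun hg _).symm
  · intro i _; rfl
  · intro g hg
    rw [mem_fixedCol] at hg
    have hc : g = fun _ => g x₀ := by
      funext y
      obtain ⟨m, rfl⟩ := (hσ x₀ y).exists_nat_pow_eq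
      induction m with
      | zero => simp
      | succ m ih => rw [pow_succ', Perm.mul_apply]; exact (congrFun hg _).trans ih
    congr 1
    funext l
    congr 1
    conv_lhs => rw [hc]
    by_cases hl : l = g x₀
    · subst hl; simp [cnt]
    · simp [cnt, hl, Ne.symm hl]

section counting

lemma card_stab (g : α → Fin k) : #(stab g) = ∏ j, (cnt g j).factorial := by
  have := DomMulAct.stabilizer_card g
  simpa [stab, cnt, Fintype.card_subtype] using this

lemma exists_cnt_eq (e : Fin k → ℕ) (he : ∑ j, e j = Fintype.card α) :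
    ∃ g : α → Fin k, cnt g = e := by
  have hc : Fintype.card α = Fintype.card (Σ j, Fin (e j)) := by simp [he]
  let φ := Fintype.equivOfCardEq hc
  refine ⟨Sigma.fst ∘ φ, ?_⟩
  rw [cnt_comp_equiv]
  funext j
  rw [cnt, Finset.card_filter, Fintype.sum_sigma]
  simp [apply_ite Finset.card]

lemma exists_perm_of_cnt_eq {g g' : α → Fin k} (h : cnt g = cnt g') :
    ∃ σ : Perm α, g ∘ σ = g' := by
  have hc : ∀ j, Fintype.card {x // g' x = j} = Fintype.card {x // g x = j} := fun j => by
    simpa [cnt, Fintype.card_subtype] using (congrFun h j).symm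
  exact ⟨Equiv.ofFiberEquiv fun j => Fintype.equivOfCardEq (hc j),
    funext fun x => Equiv.ofFiberEquiv_map _ x⟩

lemma card_cnt_mul_prod (e : Fin k → ℕ) (he : ∑ j, e j = Fintype.card α) :
    #{g : α → Fin k | cnt g = e} * ∏ j, (e j).factorial = (Fintype.card α).factorial := by
  obtain ⟨g₀, hg₀⟩ := exists_cnt_eq e he
  rw [← Fintype.card_perm, ← card_univ (α := Perm α),
    card_eq_sum_card_fiberwise (f := fun σ : Perm α => g₀ ∘ σ)
      (s := univ) (t := {g : α → Fin k | cnt g = e})
      (fun σ _ => by simp [cnt_comp_equiv, hg₀]),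
    ← smul_eq_mul, ← sum_const]
  refine sum_congr rfl fun g hg => ?_
  rw [mem_filter] at hg
  obtain ⟨σ, rfl⟩ := exists_perm_of_cnt_eq (hg₀.trans hg.2.symm)
  rw [← hg.2, ← card_stab]
  refine card_equiv (Equiv.mulLeft σ) fun τ => ?_
  simp only [mem_stab, mem_filter, mem_univ, true_and, Equiv.coe_mulLeft, Perm.coe_mul,
    Function.comp_assoc]

end counting

/-- Kostka numbers, through the branching recursion. -/
def kost (N : ℕ) : (k : ℕ) → (Fin N → ℤ) → (Fin k → ℕ) → ℤ
  | 0, a, _ => eps a 0
  | k + 1, a, c =>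
    ∑ e ∈ piAntidiag (univ : Finset (Fin N)) (c (Fin.last k)),
      kost N k (fun i => a i - e i) (c ∘ Fin.castSucc)

lemma sum_perm_chi (a : Fin N → ℤ) (π : Perm α) :
    ∑ σ : Perm β, chi a (Perm.sumCongr π σ) = (Fintype.card β).factorial *
      ∑ e ∈ piAntidiag (univ : Finset (Fin N)) (Fintype.card β),
        chi (fun i => a i - e i) π := by
  simp_rw [chi_sumCongr, fixedCol, sum_filter]
  rw [sum_comm, mul_sum]
  rw [← sum_fiberwise_of_maps_to (s := univ) (g := fun g : β → Fin N => cnt g)
    (t := piAntidiag (univ : Finset (Fin N)) (Fintype.card β)) (fun g _ => by simp [sum_cnt])]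
  refine sum_congr rfl fun e he => ?_
  have hcard : ∑ j, e j = Fintype.card β := by simpa using he
  rw [← card_cnt_mul_prod e hcard, Nat.cast_mul, mul_assoc, ← nsmul_eq_mul, ← sum_const]
  refine sum_congr rfl fun g hg => ?_
  rw [mem_filter] at hg
  rw [← sum_filter, sum_const, ← hg.2, ← card_stab, nsmul_eq_mul]
  rfl

lemma sum_stab_castSucc (F : Perm (α ⊕ β) → ℤ) (g : α → Fin k) :
    ∑ π ∈ stab (Sum.elim (Fin.castSucc ∘ g) fun _ : β => Fin.last k), F π =
      ∑ π ∈ stab g, ∑ σ : Perm β, F (Perm.sumCongr π σ) := by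
  rw [← sum_product']
  symm
  refine Finset.sum_bij (fun p _ => Perm.sumCongr p.1 p.2) ?_ ?_ ?_ ?_
  · intro p hp
    simp only [mem_product, mem_stab, mem_univ, and_true] at hp
    rw [mem_stab]
    funext x
    cases x with
    | inl x => simpa using congrArg Fin.castSucc (congrFun hp x)
    | inr x => simp
  · intro p _ q _ h
    ext x
    · simpa using Equiv.congr_fun h (Sum.inl x)
    · simpa using Equiv.congr_fun h (Sum.inr x)
  · intro π hπ
    rw [mem_stab] at hπ
    have hmaps : Set.MapsTo π (Set.range (Sum.inl : α → α ⊕ β)) (Set.range Sum.inl) := by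
      rintro _ ⟨x, rfl⟩
      rcases hy : π (Sum.inl x) with y | y
      · exact ⟨y, rfl⟩
      · have := congrFun hπ (Sum.inl x)
        simp [hy] at this
        exact absurd this.symm (Fin.castSucc_ne_last _)
    obtain ⟨⟨p, q⟩, rfl⟩ := Perm.mem_sumCongrHom_range_of_perm_mapsTo_inl hmaps
    refine ⟨(p, q), ?_, rfl⟩
    simp only [mem_product, mem_stab, mem_univ, and_true]
    funext x
    have := congrFun hπ (Sum.inl x)
    simpa [Perm.sumCongrHom] using this
  · intro p _; rfl

lemma sum_stab_equiv (a : Fin N → ℤ) (e : β ≃ α) (g : α → Fin k) :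
    ∑ π ∈ stab g, chi a π = ∑ π ∈ stab (g ∘ e), chi a π := by
  symm
  refine Finset.sum_equiv e.permCongr (fun π => ?_) (fun π _ => (chi_permCongr a e π).symm)
  simp only [mem_stab]
  constructor <;> intro h <;> funext x
  · simpa [Equiv.permCongr_apply] using congrFun h (e.symm x)
  · simpa [Equiv.permCongr_apply] using congrFun h (e x)

/-- The sum of `chi a` over a Young subgroup. -/
theorem sum_stab_chi : ∀ (k : ℕ) {α : Type} [Fintype α] [DecidableEq α] (a : Fin N → ℤ)
    (g : α → Fin k),
    ∑ π ∈ stab g, chi a π = (∏ j, ((cnt g j).factorial : ℤ)) * kost N k a (cnt g) := by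
  intro k
  induction k with
  | zero =>
    intro α _ _ a g
    have : IsEmpty α := Function.isEmpty g
    have h1 : stab g = {1} := by
      ext π; simp [Subsingleton.elim π 1]
    have h2 : fixedCol N (1 : Perm α) = {isEmptyElim} := by
      ext f; simp [Subsingleton.elim f isEmptyElim]
    have h3 : cnt (isEmptyElim : α → Fin N) = 0 := by funext j; simp [cnt]
    simp [h1, chi, h2, h3, kost]
  | succ k ih =>
    intro α _ _ a g
    let A := {x // ¬ g x = Fin.last k}
    let B := {x // g x = Fin.last k}
    let e : A ⊕ B ≃ α := (Equiv.sumComm A B).trans (Equiv.sumCompl fun x => g x = Fin.last k)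
    let g' : A → Fin k := fun x => (g x.1).castPred x.2
    have hge : g ∘ e = Sum.elim (Fin.castSucc ∘ g') (fun _ : B => Fin.last k) := by
      funext x
      cases x with
      | inl x => simp [e, g', A, B]
      | inr x => simpa [e, A, B] using x.2
    have hcnt : cnt g = cnt (Sum.elim (Fin.castSucc ∘ g') (fun _ : B => Fin.last k)) := by
      rw [← hge, cnt_comp_equiv]
    have hlast : cnt g (Fin.last k) = Fintype.card B := by
      simp [cnt, B, Fintype.card_subtype]
    have hcast : ∀ j, cnt g (Fin.castSucc j) = cnt g' j := by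
      intro j
      rw [hcnt, cnt_sumElim]
      simp [cnt, (Fin.castSucc_ne_last j).symm]
    rw [sum_stab_equiv a e, hge, sum_stab_castSucc]
    simp_rw [sum_perm_chi]
    rw [← mul_sum, sum_comm]
    simp_rw [ih]
    rw [← mul_sum, Fin.prod_univ_castSucc, hlast]
    simp only [hcast]
    rw [kost, hlast]
    have : cnt g ∘ Fin.castSucc = cnt g' := funext hcast
    rw [this]
    ring

/-- A strictly decreasing exponent vector with entries `≥ 0` encoding a partition of `n`. -/
structure IsBeta (n : ℕ) (a : Fin N → ℤ) : Prop where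
  anti : ∀ i j, i < j → a j < a i
  nonneg : ∀ i, 0 ≤ a i
  total : ∑ i, a i = (n : ℤ) + ∑ i, delta N i

end Vale.Agent.P197.SymChar
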